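import Vale.Agent.P073Y.B4.Sk
import Vale.Agent.P073Y.Zn.Bas

/-!
# The accounting on the far cells
-/

open Set Metric Topology Filter MeasureTheory
open scoped NNReal ENNReal

namespace P073.B4

open P073.Top P073.Zn P073.B

namespace Ac

theorem three {p : ℝ} (hp : 0 < p) {x a b c : ℝ≥0∞} (h : x ≤ a + b + c) :
    x ^ p ≤ (3 * a) ^ p + (3 * b) ^ p + (3 * c) ^ p := by
  have k : ∀ m : ℝ≥0∞, a ≤ m → b ≤ m → c ≤ m → x ^ p ≤ (3 * m) ^ p := fun m h1 h2 h3 =>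
    ENNReal.rpow_le_rpow (h.trans ((add_le_add (add_le_add h1 h2) h3).trans_eq (by ring))) hp.le
  rcases le_total a b with h1 | h1
  · rcases le_total b c with h2 | h2
    · exact (k c (h1.trans h2) h2 le_rfl).trans le_add_self
    · exact (k b h1 le_rfl h2).trans (le_add_self.trans le_self_add)
  · rcases le_total a c with h2 | h2
    · exact (k c h2 (h1.trans h2) le_rfl).trans le_add_self
    · exact (k a le_rfl h1 h2).trans (le_self_add.trans le_self_add)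

theorem small {p : ℝ} (hp : 0 < p) {T k ε η : ℝ≥0∞} (hT : T ≠ ⊤) (hk : k ≠ ⊤) (hε : 0 < ε)
    (hη : 0 < η) : ∃ e, 0 < e ∧ e ≤ η ∧ T * (k * e) ^ p ≤ ε := by
  have c1 : Continuous fun e : ℝ≥0∞ => T * (k * e) ^ p :=
    (ENNReal.continuous_const_mul hT).comp
      (ENNReal.continuous_rpow_const.comp (ENNReal.continuous_const_mul hk))
  have h0 : T * (k * 0) ^ p < ε := by
    rw [mul_zero, ENNReal.zero_rpow_of_pos hp, mul_zero]
    exact hε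
  have e1 : ∀ᶠ e in 𝓝 (0 : ℝ≥0∞), T * (k * e) ^ p < ε := c1.continuousAt.eventually_lt
    continuousAt_const h0
  have e2 : ∀ᶠ e in 𝓝 (0 : ℝ≥0∞), e ≤ η := Iic_mem_nhds hη
  have e3 : ∀ᶠ e in 𝓝[>] (0 : ℝ≥0∞), 0 < e := self_mem_nhdsWithin
  obtain ⟨e, h1, h2, h3⟩ := (e3.and ((e2.and e1).filter_mono nhdsWithin_le_nhds)).exists
  exact ⟨e, h1, h2, h3.le⟩

/-- small errors on a countable family of finite sets -/
theorem errs {p : ℝ} (hp : 0 < p) {ι I : Type} [Countable I] {El : Set ι} {w : ι → ℝ≥0∞}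
    (hw : ∀ c ∈ El, w c ≠ ⊤) {H : I → Set ι} (hH : ∀ i, (H i).Finite) {k η : ℝ≥0∞}
    (hk : k ≠ ⊤) (hη : 0 < η) : ∃ e : I → ℝ≥0∞, (∀ i, 0 < e i ∧ e i ≤ η) ∧
      tot El (fun c => ∑' i, (H i).indicator (fun c => w c * (k * e i) ^ p) c) ≤ η / 2 := by
  obtain ⟨ε, h1, h2⟩ := ENNReal.exists_pos_sum_of_countable' (ENNReal.half_pos hη.ne').ne' I
  choose e h3 h4 h5 using fun i => small hp
    (tot_ne_top ((hH i).subset (inter_subset_right (s := El))) fun c hc => hw c hc.1) hk (h1 i) hη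
  refine ⟨e, fun i => ⟨h3 i, h4 i⟩, ?_⟩
  rw [tot_tsum]
  refine (ENNReal.tsum_le_tsum fun i => ?_).trans h2.le
  rw [tot_indicator, tot_mul']
  exact h5 i

variable {Ω : Set E3} {S : Src Ω} {g h : E3 → E3} {c : S.Q.ι}

/-- one batch on one cell -/
theorem step {I : Type} {H C : I → Set S.Q.ι} {K : I → ℝ≥0} {e : I → ℝ≥0∞}
    (hC : ∀ i, C i ⊆ H i) (hd : ∀ i i', i ≠ i' → Disjoint (H i) (H i'))
    (h1 : (∀ i, c ∉ H i) → EqOn h g (S.Q.cell c))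
    (h2 : ∀ i, c ∈ H i → Fb S g h (K i) (e i) (c ∈ C i) c) :
    ∃ (k : ℝ≥0) (d : ℝ≥0∞), ((k = 0 ∧ d = 0) ∨ ∃ i, c ∈ H i ∧ k = K i ∧ d = e i) ∧
      S.A h c ≤ (k + 1) * S.A g c + d ∧
      lipc h (S.Q.cell c) ≤ (k + 1) * (lipc g (S.Q.cell c) + S.A g c) + d ∧
      ((∃ i, c ∈ C i) → lipc h (S.Q.cell c) ≤ (k + 1) * S.A g c + d) := by
  by_cases o : ∃ i, c ∈ H i
  · obtain ⟨i, hi⟩ := o
    have F := h2 i hi
    refine ⟨K i, e i, .inr ⟨i, hi, rfl, rfl⟩, F.sum.trans ?_, F.keep.trans ?_, fun ⟨j, hj⟩ => ?_⟩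
    · gcongr
      exact le_self_add
    · gcongr
      exact le_self_add
    · obtain rfl : j = i := by
        by_contra hne
        exact disjoint_left.1 (hd j i hne) (hC j hj) hi
      refine (F.gain hj).trans ?_
      gcongr
      exact le_self_add
  · have E := h1 fun i hi => o ⟨i, hi⟩
    refine ⟨0, 0, .inl ⟨rfl, rfl⟩, ?_, ?_, fun ⟨j, hj⟩ => (o ⟨j, hC j hj⟩).elim⟩
    · simp [A_congr E]
    · simp [Zn.lipc_congr E]

/-- the two batches on one cell -/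
theorem both {a ah lg lh lh' k k₂ d d₂ K₀ D₀ : ℝ≥0∞} {P₁ P₂ : Prop} (hk : k₂ ≤ K₀)
    (h1 : ah ≤ (k + 1) * a + d) (h2 : lh ≤ (k + 1) * (lg + a) + d) (h3 : P₁ → lh ≤ (k + 1) * a + d)
    (h4 : lh' ≤ (k₂ + 1) * (lh + ah) + d₂) (h5 : P₂ → lh' ≤ (k₂ + 1) * ah + d₂)
    (h6 : P₁ ∨ P₂ ∨ lg ≤ D₀ * a) :
    lh' ≤ (K₀ + 1) * (D₀ + 2) * (k + 1) * a + 2 * (K₀ + 1) * d + d₂ := by
  have e : (K₀ + 1) * (D₀ + 2) * (k + 1) * a + 2 * (K₀ + 1) * d + d₂ =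
      (K₀ + 1) * (((k + 1) * (D₀ * a + a) + d) + ((k + 1) * a + d)) + d₂ := by ring
  rw [e]
  have k1 : lh ≤ (k + 1) * (D₀ * a + a) + d → lh' ≤
      (K₀ + 1) * (((k + 1) * (D₀ * a + a) + d) + ((k + 1) * a + d)) + d₂ := fun o =>
    h4.trans (by gcongr)
  rcases h6 with o | o | o
  · refine k1 ((h3 o).trans ?_)
    gcongr
    exact le_add_self
  · refine (h5 o).trans ?_
    gcongr
    exact h1.trans le_add_self
  · exact k1 (h2.trans (by gcongr))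

theorem err_le {p : ℝ} (hp : 0 < p) {ι I : Type} {H : I → Set ι} {w : ι → ℝ≥0∞} {k d : ℝ≥0∞}
    {e : I → ℝ≥0∞} {c : ι} (h : d = 0 ∨ ∃ i, c ∈ H i ∧ d = e i) :
    w c * (k * d) ^ p ≤ ∑' i, (H i).indicator (fun c => w c * (k * e i) ^ p) c := by
  rcases h with rfl | ⟨i, hi, rfl⟩
  · simp [ENNReal.zero_rpow_of_pos hp]
  · exact (indicator_of_mem hi fun c => w c * (k * e i) ^ p).ge.trans
      (ENNReal.le_tsum (f := fun i => (H i).indicator (fun c => w c * (k * e i) ^ p) c) i)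

end Ac

theorem act {p : ℝ} (hp : 0 < p) : ACT p := by
  intro K₀ K₁ D₀
  refine ⟨(3 * ((K₀ + 1) * (D₀ + 2))) ^ p * (K₁ + 1) ^ p, (3 * ((K₀ + 1) * (D₀ + 2))) ^ p, ?_⟩
  set Ct : ℝ≥0 := (3 * ((K₀ + 1) * (D₀ + 2))) ^ p with hCt
  intro Ω S J _ El w H₁ η hη hw hH₁
  obtain ⟨η₁, a1, a2⟩ := Ac.errs hp hw hH₁ (k := ((3 * (2 * (K₀ + 1)) : ℝ≥0) : ℝ≥0∞))
    ENNReal.coe_ne_top hη
  refine ⟨η₁, a1, fun H₂ hH₂ => ?_⟩
  obtain ⟨η₂, b1, b2⟩ := Ac.errs hp hw hH₂ (k := 3) (by simp) hη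
  refine ⟨η₂, fun m => (b1 m).1, ?_⟩
  intro g h h' K C₁ C₂ X hC₁ hC₂ hX d₁ d₂ hc
  have pw : ∀ (k : ℝ≥0) (a : ℝ≥0∞), (3 * (((K₀ : ℝ≥0∞) + 1) * (D₀ + 2) * (k + 1) * a)) ^ p =
      ((Ct * (k + 1) ^ p : ℝ≥0) : ℝ≥0∞) * a ^ p := fun k a => by
    rw [hCt, ← NNReal.mul_rpow, ENNReal.coe_rpow_of_nonneg _ hp.le,
      ← ENNReal.mul_rpow_of_nonneg _ _ hp.le]
    congr 1
    push_cast
    ring
  have key : ∀ c ∈ El, w c * lipc h' (S.Q.cell c) ^ p ≤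
      (((Ct * (K₁ + 1) ^ p : ℝ≥0) : ℝ≥0∞) * (w c * S.A g c ^ p) +
      ∑ j, (X j).indicator (fun c => ((Ct * (K j + 1) ^ p : ℝ≥0) : ℝ≥0∞) *
        (w c * S.A g c ^ p)) c) +
      ∑' i, (H₁ i).indicator (fun c => w c * (((3 * (2 * (K₀ + 1)) : ℝ≥0) : ℝ≥0∞) * η₁ i) ^ p) c +
      ∑' m, (H₂ m).indicator (fun c => w c * (3 * η₂ m) ^ p) c := fun c hE => by
    obtain ⟨c1, c2, c3, c4, c5⟩ := hc c hE
    obtain ⟨k, d, s1, s2, s3, s4⟩ := Ac.step hC₁ d₁ c1 c3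
    obtain ⟨k', d', t1, -, t3, t4⟩ := Ac.step (K := fun _ => K₀) hC₂ d₂ c2 c4
    have hk : (k' : ℝ≥0∞) ≤ K₀ := by
      rcases t1 with ⟨rfl, -⟩ | ⟨_, -, rfl, -⟩
      · simp
      · exact le_rfl
    have := Ac.three hp (Ac.both hk s2 s3 s4 t3 t4 c5)
    refine (mul_le_mul_right this _).trans ?_
    rw [mul_add, mul_add, pw]
    refine add_le_add (add_le_add ?_ ?_) ?_
    · rw [mul_left_comm]
      have u : ∀ k : ℝ≥0, k ≤ K₁ → ((Ct * (k + 1) ^ p : ℝ≥0) : ℝ≥0∞) * (w c * S.A g c ^ p) ≤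
          ((Ct * (K₁ + 1) ^ p : ℝ≥0) : ℝ≥0∞) * (w c * S.A g c ^ p) := fun k hk => by
        gcongr
      rcases s1 with ⟨rfl, -⟩ | ⟨j | n, hi, rfl, -⟩
      · exact (u 0 zero_le).trans le_self_add
      · refine le_trans ?_ le_add_self
        refine le_trans ?_ (Finset.single_le_sum (fun _ _ => zero_le) (Finset.mem_univ j))
        rw [indicator_of_mem (hX j ⟨hE, hi⟩)]
        exact le_rfl
      · exact le_self_add
    · have e : (3 : ℝ≥0∞) * (2 * (K₀ + 1) * d) = ((3 * (2 * (K₀ + 1)) : ℝ≥0) : ℝ≥0∞) * d := by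
        push_cast
        ring
      rw [e]
      exact Ac.err_le hp (s1.imp (·.2) fun ⟨i, o, _, o'⟩ => ⟨i, o, o'⟩)
    · exact Ac.err_le hp (t1.imp (·.2) fun ⟨i, o, _, o'⟩ => ⟨i, o, o'⟩)
  refine (tot_le key).trans ?_
  rw [tot_add, tot_add, tot_add, tot_mul, tot_sum, add_assoc]
  refine add_le_add (add_le_add le_rfl (Finset.sum_le_sum fun j _ => ?_))
    ((add_le_add a2 b2).trans_eq (ENNReal.add_halves η))
  rw [tot_indicator, tot_mul]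
  exact mul_le_mul_right (tot_subset inter_subset_right _) _

end P073.B4
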