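import Vale.Agent.P073Y.B4.Dy2
import Vale.Agent.P073Y.Zn.Dyn1

/-!
# The first batch can run
-/

open Set Metric Topology Filter MeasureTheory
open scoped NNReal ENNReal

namespace P073.B4

open P073.Top P073.Zn P073.B

open Y2 D1 in
theorem dy1 : DY1 := by
  intro J k₀ B A v₀ A₁ q l₂ e R P S g γ Γ D G₁ μ₁ G₂ μ₂ H
  have l0 : 0 < l₂ := P.l_zero ▸ P.l_pos 0
  have nΓ : ∀ i, ∀ y ∈ (A.Z i).supp, y ∉ Γ := fun i y hy h => (gam H h).2 i (supp_marg _ hy)
  have os : ∀ i, S.Osc g (A.Z i).supp (P.rr i * μ₁ i) := fun i c hc =>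
    (H.aux₁ i).osc c (hit_mono (fun y hy => mem_sdiff_of_mem hy (nΓ i y hy)) hc)
  refine ⟨fun i i' hi => disjoint_left.2 fun c h1 h2 => ?_, fun i => ⟨?_, fun c hc x hx y hy =>
    (os i c hc x hx y hy).trans (mul_le_mul_of_nonneg_right (P.rr_le i) (H.aux₁ i).pos.le)⟩,
    fun j u hu h1 => ?_, fun y hy i h1 => nΓ i y h1
      (H.main.sub (H.main.prot (self_subset_thickening (by linarith) _ hy)))⟩
  · obtain ⟨x, hx, a1⟩ := mem_hit.1 h1
    obtain ⟨y, hy, a2⟩ := mem_hit.1 h2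
    obtain ⟨z, b1, b2⟩ := mem_supp.1 a1
    exact disjoint_left.1 (A.disj i i' hi) (mem_marg b1 (lbox_dist b2 (P.rrT i _ _
      ((os i c h1 y hy x hx).trans (mul_le_mul_of_nonneg_left (H.aux₁ i).le (P.pos i).2.2.1.le))))
      (by norm_num)) (supp_marg _ a2)
  · have ht : 0 ≤ v₀ * (A.Z i).t / 2 := (div_pos (mul_pos A₁.v_pos (A.Z i).t_pos) two_pos).le
    have a1 : volume ((A.Z i).T '' ((A.Z i).supp ∩ Ex B A₁.s)) ≤
        ENNReal.ofReal (v₀ * (A.Z i).t / 2) := by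
      rcases ((A.Z i).supp ∩ Ex B A₁.s).eq_empty_or_nonempty with h0 | ⟨y₀, h0⟩
      · rw [h0, image_empty, measure_empty]
        exact zero_le
      have key : ∀ y ∈ (A.Z i).supp, ∀ j, y ∈ B.f '' (B.Ω ∩ thickening A₁.s (B.Y j).K) →
          i = .inl j := by
        rintro _ hy j ⟨u, hu, rfl⟩
        obtain ⟨w, w1, w2⟩ := (A₁.close u hu.1 (B.f u) (by
          rw [dist_self]; exact (A₁.gauge.2 u hu.1).le)).2.2 j hu.2
        by_contra hne
        exact disjoint_left.1 (A.disj _ _ hne) (supp_marg _ hy)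
          (mem_marg (sub_nbr 1 _ (w1 (sub_nbr 1 _ rfl))) w2 (by norm_num))
      obtain ⟨j, hj⟩ := mem_iUnion.1 h0.2
      obtain rfl := key y₀ h0.1 j hj
      refine (measure_mono (image_mono fun y hy => ?_)).trans (A₁.vol j)
      obtain ⟨j', hj'⟩ := mem_iUnion.1 hy.2
      obtain rfl := Sum.inl_injective (key y hy.1 j' hj')
      exact hj'
    have a2 : (A.Z i).supp \ G₁ i ⊆
        (A.Z i).supp \ (G₁ i ∪ Γ ∪ Ex B A₁.s) ∪ (A.Z i).supp ∩ Ex B A₁.s := fun y hy => by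
      by_cases h1 : y ∈ Ex B A₁.s
      · exact .inr ⟨hy.1, h1⟩
      · exact .inl ⟨hy.1, fun h2 => h2.elim (·.elim hy.2 (nΓ i y hy.1)) h1⟩
    refine (measure_mono ((image_mono a2).trans (image_union _ _ _).le)).trans
      ((measure_union_le _ _).trans ((add_le_add (P.vol i _ (H.aux₁ i).vol) a1).trans_eq ?_))
    rw [← ENNReal.ofReal_add ht ht, add_halves]
  · obtain ⟨z, b1, b2⟩ := mem_supp.1 h1
    obtain ⟨v, c1, c2⟩ := A.margG j (mem_marg b1 (lbox_dist b2 (A.lipT j (B.f u) (g u)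
      (dist_comm (g u) _ ▸ (A₁.close u hu _ (H.cl u hu)).1))) (by norm_num))
    rwa [← B.hom.left_inv.injOn ((B.Y j).subΩ c1) hu c2]

end P073.B4
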