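import Vale.Agent.P073Y.B4.Dy2
import Vale.Agent.P073Y.Zn.Dyn1

/-!
# Supports, covering, protected sets and the final distance
-/

open Set Metric Topology Filter MeasureTheory
open scoped NNReal ENNReal

namespace P073.B4

open P073.Top P073.Zn P073.B

namespace Y3

open Y2 D1

variable {J : Type} {k₀ : Cst} {B : Base J} {A : St1 k₀ B} {v₀ : ℝ} {A₁ : P1 A v₀}
  {q : C0} {l₂ e : ℝ} {R : J ⊕ ℕ → ℝ → ℝ → ℝ → ℝ → ℝ → Prop} {P : P2 A₁ q l₂ e R}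
  {S : Src B.Ω} {g h : E3 → E3} {γ Γ D : Set E3} {G₁ : J ⊕ ℕ → Set E3} {μ₁ : J ⊕ ℕ → ℝ}
  {G₂ : ℕ → Set E3} {μ₂ : ℕ → ℝ}

theorem cth_lbox {N : ℕ} {r : ℝ} (hr : 0 ≤ r) {z : Z3} {y : E3}
    (hy : y ∈ cthickening r (lbox N 0 z)) : y ∈ lbox N (-r) z := by
  rw [(isCompact_lbox N 0 z).isClosed.cthickening_eq_biUnion_closedBall hr] at hy
  obtain ⟨w, h1, h2⟩ := mem_iUnion₂.1 hy
  simpa using lbox_dist h1 (mem_closedBall.1 h2)

/-- a point is moved inside the slightly enlarged box -/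
theorem keep (L : Lay4 P S μ₁ g h) {x : E3} (hx : x ∈ B.Ω) {i : J ⊕ ℕ} {z : Z3}
    (hz : z ∈ nbr 1 (A.Z i).B) (h1 : (A.Z i).T (g x) ∈ lbox (A.Z i).N 0 z) :
    (A.Z i).T (h x) ∈ lbox (A.Z i).N (-P.r' i) z := by
  obtain ⟨h', g1, g2⟩ := L.geo i
  obtain ⟨c, hc⟩ := exists_cell S hx
  rw [g2 c (mem_hit.2 ⟨x, hc, mem_supp.2 ⟨z, hz, h1⟩⟩) hc]
  exact cth_lbox (P.pos i).2.1.le (g1.near x hx z h1)

theorem move (L : Lay4 P S μ₁ g h) {x : E3} (hx : x ∈ B.Ω) : dist (h x) (g x) ≤ B.ε / 10 ∧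
    ∀ n, g x ∈ shl B.Λ A.d₀ n (4 / 10) (11 / 10) → dist (h x) (g x) ≤ dk A.d₀ n / 100 := by
  by_cases ho : ∀ i, g x ∉ (A.Z i).supp
  · rw [L.off x hx ho, dist_self]
    exact ⟨by linarith [B.ε_pos], fun n _ => by linarith [dk_pos A.d_pos n]⟩
  obtain ⟨i, hi⟩ := not_forall_not.1 ho
  obtain ⟨z, hz, hg⟩ := mem_supp.1 hi
  have ht := A.tiny i z (h x) (g x) (lbox_mono _ (by linarith [P.r_le i]) z (keep L hx hz hg))
    (lbox_mono _ (by norm_num) z hg)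
  refine ⟨ht.trans (min_le_left _ _), fun n hn => ?_⟩
  have hl : n ≤ lev i + 1 := by
    by_contra hc
    exact disjoint_left.1 (A.sh.disj (by omega) (by norm_num) (by norm_num))
      (A.marg i (supp_marg _ hi)) hn
  linarith [ht.trans (min_le_right _ _), ClA.dk_le A.d_pos hl]

theorem sep (H : Hy P S g γ Γ D G₁ μ₁ G₂ μ₂) {y y' : E3} (hy : y ∈ Γ) (hd : dist y' y ≤ A.s₀)
    (i : J ⊕ ℕ) : y' ∉ (A.Z i).marg 2 := by
  obtain ⟨u, hu, rfl⟩ := H.sub hy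
  exact A.sep u hu (fun j hj => disjoint_left.1 (H.disj j) hy ⟨u, hj, rfl⟩) _ hd i

theorem supp_sub (P₃ : P3 P γ) (m : ℕ) :
    (P₃.Z m).supp ⊆ shl B.Λ A.d₀ (2 * m) (46 / 100) (104 / 100) := fun y hy => by
  obtain ⟨y', h1, h2⟩ := P₃.supp m y hy
  refine A.sh.mono (by norm_num) (by norm_num) (A.sh.move (c := 1 / 100) h1.1 ?_)
  linarith [P.l_d m, dk_pos A.d_pos (2 * m)]

end Y3

open Y2 Y3 D1 in
theorem dy3 : DY3 := by
  intro J k₀ B A v₀ A₁ q l₂ e R P S g h γ Γ D G₁ μ₁ G₂ μ₂ P₃ H L hO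
  have sb := supp_sub P₃
  have sb' : ∀ m, (P₃.Z m).supp ⊆ shl B.Λ A.d₀ (2 * m) (45 / 100) (105 / 100) := fun m =>
    (sb m).trans (A.sh.mono (by norm_num) (by norm_num))
  have l0 : 0 < l₂ := P.l_zero ▸ P.l_pos 0
  have hd : ∀ m m', m < m' → Disjoint (hit S h (P₃.Z m).supp) (hit S h (P₃.Z m').supp) := by
    refine fun m m' hm => disjoint_left.2 fun c h1 h2 => ?_
    obtain ⟨x, hx, a1⟩ := mem_hit.1 h1
    obtain ⟨y, hy, a2⟩ := mem_hit.1 h2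
    obtain ⟨b1, b2, b3, -⟩ := al q (P.l_pos m)
    refine disjoint_left.1 (A.sh.disj (by omega) (by norm_num) (by norm_num))
      (A.sh.move (c := 1 / 100) (sb m a1) ?_) (sb m' a2)
    linarith [hO m c (hit_mono (sb' m) h1) y hy x hx, P.l_d m, dk_pos A.d_pos (2 * m)]
  refine ⟨sb, fun m m' hm => hm.lt_or_gt.elim (hd m m') fun hm => (hd m' m hm).symm, fun c => ?_,
    fun j u hu m h1 => ?_, fun y hy m h1 => ?_, fun u hu y hy => ?_⟩
  · obtain ⟨x, hx⟩ := S.Q.cell_nonempty c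
    have hΩ := cell_sub c hx
    obtain ⟨n, hn⟩ := A.sh.cover _ (H.maps hΩ)
    obtain ⟨m, rfl | rfl⟩ := n.even_or_odd'
    swap
    · exact .inl ⟨.inr m, mem_hit.2 ⟨x, hx, A.cover m hn⟩⟩
    have a1 := (move L hΩ).2 _ (A.sh.mono (by norm_num) (by norm_num) hn)
    have a2 := A.sh.move (c := 1 / 100) (y' := h x) hn (by linarith)
    by_cases a3 : h x ∈ P.cov γ m
    · exact .inr (.inl ⟨m, mem_hit.2 ⟨x, hx, P₃.core m a3⟩⟩)
    rcases not_not.1 (fun a4 => a3 ⟨A.sh.mono (by norm_num) (by norm_num) a2, a4⟩) with a4 | a4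
    · obtain ⟨j, a4⟩ := mem_iUnion.1 a4
      obtain ⟨z₀, b1, b2⟩ := mem_iUnion₂.1 (a4 (mem_ball_self (by norm_num)))
      obtain ⟨z, b3, b4⟩ := mem_supp.1 ((L.mem _ x hΩ).1 (mem_supp.2 ⟨z₀, sub_nbr 1 _ b1, b2⟩))
      obtain ⟨w, b6, b7⟩ := exists_inner (A.Z (.inl j)).N_pos (P.pos _).2.1.le
        (Y3.keep L hΩ b3 b4)
      obtain ⟨z', b8, b9⟩ := mem_iUnion₂.1
        (a4 (mem_ball.2 (b7.trans_lt (by linarith [P.r_le (.inl j)]))))
      obtain rfl := eq_of_mem (A.Z (.inl j)).N_pos (by norm_num) b6 b9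
      exact .inl ⟨.inl j, mem_hit.2 ⟨x, hx, mem_biUnion b8 b4⟩⟩
    · have a5 : h x ∈ shl B.Λ A.d₀ (2 * m) (45 / 100) (105 / 100) :=
        A.sh.mono (by norm_num) (by norm_num) a2
      obtain rfl := m_zero H (H.main.sub a4) (by rw [dist_self]; exact A.d_pos.le) a5
      have a6 : OscC S h c (q.ω * l₂) := P.l_zero ▸ hO 0 c ⟨_, ⟨x, hx, rfl⟩, a5⟩
      obtain ⟨b1, b2, b3, b4, -⟩ := al q l0
      have a7 : EqOn g h (S.Q.cell c) := fun u hu => (same L (cell_sub c hu) fun i hi =>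
        Y3.sep H (H.main.sub a4) ((a6 u hu x hx).trans (by linarith [P.l_le, A₁.l_s])) i
          (supp_marg _ hi)).symm
      obtain ⟨T, hT⟩ := H.main.cer.affine (mem_hit.2 ⟨x, hx, (a7 hx).symm ▸ a4⟩)
        (μ' := q.ω * l₂) (fun u hu v hv => by rw [a7 hu, a7 hv]; exact a6 u hu v hv) (by linarith)
      exact .inr (.inr ⟨T.toAffineMap, hT⟩)
  · obtain ⟨z, a1, a2⟩ := (A₁.close u hu.1 _ (H.cl u hu.1)).2.2 j hu.2
    have a3 := sub_nbr 1 _ (a1 (sub_nbr 1 _ rfl))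
    have a4 := Y3.keep L hu.1 a3 a2
    have a5 := P.r_le (.inl j)
    rcases eq_or_ne m 0 with rfl | hm
    · obtain ⟨y', b1, b2⟩ := P₃.supp 0 _ h1
      have b3 := lbox_dist a4 (P.lT (.inl j) 0 ⟨by simp, by simp [lev]⟩ y' (h u)
        (by linarith [dist_comm y' (h u), P.l_pos 0]))
      refine b1.2 (.inl (mem_iUnion.2 ⟨j, fun w hw => ?_⟩))
      obtain ⟨z', hz'⟩ := exists_lbox (A.Z (.inl j)).N_pos w
      exact mem_biUnion (a1 (near_of_mem (A.Z (.inl j)).N_pos (by linarith) hz'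
        (lbox_dist b3 (mem_ball.1 hw).le))) hz'
    · exact disjoint_left.1 (A.sh.disj (k := 0) (by omega) (by norm_num) (by norm_num))
        (A.marg (.inl j) (mem_marg a3 a4 (by linarith))) (sb m h1)
  · obtain rfl := m_zero H (H.main.sub (H.main.prot (self_subset_thickening (by linarith) _ hy)))
      (by rw [dist_self]; exact A.d_pos.le) (sb' m h1)
    obtain ⟨y', b1, b2⟩ := P₃.supp 0 _ h1
    refine b1.2 (.inr (H.main.prot (mem_thickening_iff.2 ⟨y, hy, ?_⟩)))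
    rw [P.l_zero, dist_comm] at b2
    linarith
  · have a1 := (move L hu).1
    have a2 := (A₁.close u hu _ (H.cl u hu)).1
    have a3 := B.ε_pos
    have a4 : dist y (h u) ≤ B.ε / 50 := by
      rcases hy with rfl | ⟨m, hm⟩
      · rw [dist_self]
        positivity
      · linarith [P.l_ε m]
    linarith [dist_triangle4 y (h u) (g u) (B.f u), A.s₀_ε]

end P073.B4
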