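import Vale.Agent.P073Y.B4.Sk
import Vale.Agent.P073Y.Zn.St1
import Vale.Agent.P073Z.RCX

/-!
# The parameters of the two batches
-/

open Set Metric Topology Filter MeasureTheory
open scoped NNReal ENNReal

namespace P073.B4

open P073.Top P073.Zn P073.B

namespace Pa

theorem ex_minS {ι : Type} {s : Set ι} (hs : s.Finite) (a : ι → ℝ) (h : ∀ i, 0 < a i) :
    ∃ c, 0 < c ∧ ∀ i ∈ s, c ≤ a i := by
  have := hs.to_subtype
  obtain ⟨c, hc, h1⟩ := S1.ex_min (J := s) (fun i => a i) fun i => h i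
  exact ⟨c, hc, fun i hi => h1 ⟨i, hi⟩⟩

theorem rad (Z : ZD) {c : ℝ} (hc : 0 < c) :
    ∃ ρ : ℝ, 0 < ρ ∧ ∀ u u', dist u u' ≤ ρ → dist (Z.T u) (Z.T u') ≤ c := by
  obtain ⟨a, b, ha, -, -⟩ := Z.cond
  obtain ⟨ρ, hρ, h⟩ := Metric.uniformContinuous_iff.1 ha.uniformContinuous c hc
  exact ⟨ρ / 2, half_pos hρ, fun u u' k => (h (k.trans_lt (half_lt_self hρ))).le⟩

theorem rad_lev {J : Type} [Finite J] (Z : J ⊕ ℕ → ZD) (b : ℕ) {c : ℝ} (hc : 0 < c) :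
    ∃ ρ : ℝ, 0 < ρ ∧ ∀ i, lev i ≤ b → ∀ u u', dist u u' ≤ ρ →
      dist ((Z i).T u) ((Z i).T u') ≤ c := by
  choose ρ h1 h2 using fun i => rad (Z i) hc
  obtain ⟨r, hr, h3⟩ := ex_minS (s := lev (J := J) ⁻¹' {n | n ≤ b})
    ((finite_le_nat b).preimage' fun n _ => S1.lev_fin n) ρ h1
  exact ⟨r, hr, fun i hi u u' k => h2 i u u' (k.trans (h3 i hi))⟩

theorem vol_eq (T : E3 ≃ᴬ[ℝ] E3) :
    ∃ D : ℝ, 0 ≤ D ∧ ∀ X : Set E3, volume (T '' X) = ENNReal.ofReal D * volume X := by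
  refine ⟨|LinearMap.det (T.toAffineEquiv.linear : E3 →ₗ[ℝ] E3)|, abs_nonneg _, fun X => ?_⟩
  have h : (T : E3 → E3) = (fun y => y + T 0) ∘ (T.toAffineEquiv.linear : E3 →ₗ[ℝ] E3) := by
    funext y
    have := T.toAffineEquiv.map_vadd 0 y
    simpa using this
  rw [← Measure.addHaar_image_linearMap, h, image_comp, image_add_right,
    measure_preimage_add_right]

theorem vol_le (T : E3 ≃ᴬ[ℝ] E3) {w : ℝ} (hw : 0 < w) : ∃ v : ℝ, 0 < v ∧ ∀ X : Set E3,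
    volume X ≤ ENNReal.ofReal v → volume (T '' X) ≤ ENNReal.ofReal w := by
  obtain ⟨D, hD, h⟩ := vol_eq T
  refine ⟨w / (D + 1), by positivity, fun X hX => ?_⟩
  rw [h]
  refine (mul_le_mul_right hX _).trans ?_
  rw [← ENNReal.ofReal_mul hD]
  refine ENNReal.ofReal_le_ofReal ?_
  rw [mul_div_assoc', div_le_iff₀ (by positivity)]
  nlinarith

theorem thin {Ω : Set E3} {f : E3 → E3} (Y : TyZ Ω f) (ho : IsOpen Ω) (hf : ContinuousOn f Ω)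
    {v : ℝ} (hv : 0 < v) : ∃ s : ℝ, 0 < s ∧
    volume (f '' (Ω ∩ thickening s Y.K)) ≤ ENNReal.ofReal v := by
  obtain ⟨V, h1, h2, h3⟩ := (f '' Y.K).exists_isOpen_lt_of_lt (μ := volume) (ENNReal.ofReal v)
    (Y.null ▸ ENNReal.ofReal_pos.2 hv)
  obtain ⟨s, h4, h5⟩ := Y.cpt.exists_thickening_subset_open (hf.isOpen_inter_preimage ho h2)
    fun x hx => ⟨Y.subΩ (Y.sub hx), h1 ⟨x, hx, rfl⟩⟩
  refine ⟨s, h4, (measure_mono ?_).trans h3.le⟩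
  rintro _ ⟨x, hx, rfl⟩
  exact (h5 hx.2).2

theorem pt (h : GAUGE3) {Ω Λ : Set E3} {f : E3 → E3} (R : ℕ → Set E3) (o : ℕ → ℝ) {a : ℝ}
    (hf : ContinuousOn f Ω) (hm : MapsTo f Ω Λ) (hR : LFIn R Λ) (ho : ∀ k, 0 < o k)
    (ha : 0 < a) : ∃ γ : E3 → ℝ, Gauge γ Ω ∧ (∀ y, γ y ≤ a) ∧ ∀ x ∈ Ω, ∀ y,
      dist y (f x) ≤ γ x → ∀ k, (y ∈ R k ∨ f x ∈ R k) → dist y (f x) ≤ o k := by
  obtain ⟨γ, h1, h2, h3⟩ := h R o a hf hm hR ho ha
  refine ⟨γ, h1, h2, fun x hx y hy k hk => h3 {x} (fun _ => y) (singleton_subset_iff.2 hx)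
    (fun _ _ _ e => mem_singleton_iff.1 e ▸ hy) k ?_ x rfl x rfl⟩
  exact hk.imp (fun e => ⟨y, ⟨x, rfl, rfl⟩, e⟩) fun e => ⟨f x, ⟨x, rfl, rfl⟩, e⟩

end Pa

theorem pa1_of (h : GAUGE3) : PA1 := by
  intro J k₀ B A v₀ hv
  have := B.fin
  choose w hw hT using fun j => Pa.vol_le (A.Z (.inl j)).T
    (half_pos (mul_pos hv (A.Z (.inl j)).t_pos))
  choose s hs hK using fun j => Pa.thin (B.Y j) B.opn B.hom.cont (hw j)
  obtain ⟨s', hs', h1⟩ := S1.ex_min s hs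
  obtain ⟨ρ, hρ, h2⟩ := Pa.rad_lev A.Z 1 (c := 1 / 4) (by norm_num)
  choose o ho h3 using A.near
  obtain ⟨o', ho', h4⟩ := S1.ex_min o ho
  obtain ⟨γ, h5, h6, h7⟩ := Pa.pt h (fun n => shl B.Λ A.d₀ n (4 / 10) (12 / 10))
    (fun n => dk A.d₀ n / 1000) B.hom.cont B.hom.mapsTo (A.sh.lf _ _)
    (fun n => div_pos (S1.dk_pos A.d_pos n) (by norm_num)) (lt_min A.s₀_pos ho')
  have := A.s₀_pos
  refine ⟨⟨min s' A.s₁, min (A.s₀ / 100) (ρ / 10), γ, hv, lt_min hs' A.s₁_pos, min_le_right _ _,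
    fun j => hT j _ ((measure_mono (image_mono (inter_subset_inter_right _ (thickening_mono
      ((min_le_left _ _).trans (h1 j)) _)))).trans (hK j)), by positivity, ?_,
    fun i hi u u' k => h2 i hi u u' ?_, h5, fun x hx y hy => ⟨?_, h7 x hx y hy, fun j k =>
      h3 j x (thickening_mono (min_le_right _ _) _ k) y ?_⟩⟩⟩
  · linarith [min_le_left (A.s₀ / 100) (ρ / 10)]
  · linarith [min_le_right (A.s₀ / 100) (ρ / 10)]
  · exact hy.trans ((h6 x).trans (min_le_left _ _))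
  · exact hy.trans ((h6 x).trans ((min_le_right _ _).trans (h4 j)))

theorem pa2_of (h : GAUGE3) : PA2 := by
  intro J k₀ B A v₀ A₁ q l₂ e R hv hl₂ hl₀ he hR
  have := B.fin
  have hd := A.d_pos
  have hε := B.ε_pos
  have hl : ∀ m : ℕ, ∃ l : ℝ, 0 < l ∧ (m = 0 → l = l₂) ∧ l ≤ dk A.d₀ (2 * m) / 1000 ∧
      l ≤ B.ε / 100 ∧ ∀ i, lev i ≤ 2 * m + 1 → ∀ u u', dist u u' ≤ 10 * l →
        dist ((A.Z i).T u) ((A.Z i).T u') ≤ 1 / 4 := by
    intro m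
    rcases eq_or_ne m 0 with rfl | hm
    · refine ⟨l₂, hl₂, fun _ => rfl, ?_, by linarith [A₁.l_s, A.s₀_ε],
        fun i hi u u' k => A₁.lT i hi u u' (by linarith)⟩
      rw [mul_zero, S1.dk_zero]
      linarith [A₁.l_s, A.s₀_d]
    · obtain ⟨ρ, hρ, h2⟩ := Pa.rad_lev A.Z (2 * m + 1) (c := 1 / 4) (by norm_num)
      have := S1.dk_pos hd (2 * m)
      refine ⟨min (min (dk A.d₀ (2 * m) / 1000) (B.ε / 100)) (ρ / 10), by positivity,
        fun e => absurd e hm, (min_le_left _ _).trans (min_le_left _ _),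
        (min_le_left _ _).trans (min_le_right _ _), fun i hi u u' k => h2 i hi u u' ?_⟩
      linarith [min_le_right (min (dk A.d₀ (2 * m) / 1000) (B.ε / 100)) (ρ / 10)]
  choose l l1 l2 l3 l4 l5 using hl
  have ha := q.a_pos
  have hω := q.ω_pos
  have hq := q.v_pos
  have hr := q.r_pos
  have hi : ∀ i : J ⊕ ℕ, ∃ v δ r' r μ₀ rr mm vv : ℝ, R i v δ r' r μ₀ ∧
      (0 < δ ∧ 0 < r' ∧ 0 < rr ∧ 0 < mm ∧ 0 < vv) ∧ rr ≤ r ∧ mm ≤ μ₀ ∧
      (∀ m, Adj i m → v ≤ q.v₀ * (q.a * l m) ^ 3) ∧ r' ≤ e ∧ r' ≤ 1 / 8 ∧ r' ≤ q.r * δ ∧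
      (∀ m, Adj i m → δ * mm ≤ q.a * l m) ∧ (∀ m, Adj i m → r' * mm ≤ q.ω * l m) ∧
      (∀ u u', dist u u' ≤ rr * mm → dist ((A.Z i).T u) ((A.Z i).T u') ≤ 1) ∧
      ∀ X : Set E3, volume X ≤ ENNReal.ofReal vv →
        volume ((A.Z i).T '' X) ≤ ENNReal.ofReal (v₀ * (A.Z i).t / 2) := by
    intro i
    obtain ⟨c, hc, h1⟩ := Pa.ex_minS (finite_le_nat (lev i + 1)) l l1
    have h2 : ∀ m, Adj i m → c ≤ l m := fun m hm => h1 m (by
      have := hm.1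
      simp only [mem_ofPred_eq]
      omega)
    obtain ⟨δ, hδ, h3⟩ := hR i (q.v₀ * (q.a * c) ^ 3) (by positivity)
    have hr' : 0 < min e (min (1 / 8) (q.r * δ)) := by positivity
    obtain ⟨r, μ₀, h4, h5, h6⟩ := h3 _ hr'
    set r' := min e (min (1 / 8) (q.r * δ)) with hr''
    obtain ⟨ρ, hρ, h7⟩ := Pa.rad (A.Z i) one_pos
    obtain ⟨vv, h8, h9⟩ := Pa.vol_le (A.Z i).T (half_pos (mul_pos hv (A.Z i).t_pos))
    set mm := min (min μ₀ ρ) (min (q.a * c / δ) (q.ω * c / r')) with hmm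
    have m0 : 0 < mm := by positivity
    have m1 : mm ≤ ρ := (min_le_left _ _).trans (min_le_right _ _)
    have m2 : δ * mm ≤ q.a * c :=
      (le_div_iff₀' hδ).1 ((min_le_right _ _).trans (min_le_left _ _))
    have m3 : r' * mm ≤ q.ω * c :=
      (le_div_iff₀' hr').1 ((min_le_right _ _).trans (min_le_right _ _))
    refine ⟨_, δ, r', r, μ₀, min r 1, mm, vv, h6, ⟨hδ, hr', by positivity, m0, h8⟩,
      min_le_left _ _, (min_le_left _ _).trans (min_le_left _ _), fun m hm => ?_,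
      min_le_left _ _, (min_le_right _ _).trans (min_le_left _ _),
      (min_le_right _ _).trans (min_le_right _ _),
      fun m hm => m2.trans (mul_le_mul_of_nonneg_left (h2 m hm) ha.le),
      fun m hm => m3.trans (mul_le_mul_of_nonneg_left (h2 m hm) hω.le),
      fun u u' k => h7 u u' (k.trans ((mul_le_of_le_one_left m0.le (min_le_right _ _)).trans m1)),
      h9⟩
    have := h2 m hm
    gcongr
  choose v δ r' r μ₀ rr mm vv p1 p2 p3 p4 p5 p6 p7 p8 p9 p10 p11 p12 using hi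
  obtain ⟨γ, g1, -, g3⟩ := Pa.pt h (fun m => shl B.Λ A.d₀ (2 * m) (4 / 10) (12 / 10))
    (fun m => q.ω * l m / 2) B.hom.cont B.hom.mapsTo
    ((A.sh.lf (4 / 10) (12 / 10)).comp_injective (f := fun m : ℕ => 2 * m) fun _ _ k => by
      simpa using k) (fun m => half_pos (mul_pos hω (l1 m))) one_pos
  refine ⟨⟨l, v, δ, r', r, μ₀, rr, mm, vv, γ, l1, l2 0 rfl, hl₀, l3, l4,
    fun i m k => l5 m i k.2, p1, p2, p3, p4, p5, p6, p7, p8, p9, p10, p11, p12, g1,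
    fun m x hx k => ?_⟩⟩
  have e1 : dist (B.f x + fun _ => γ x) (B.f x) = γ x := by
    rw [dist_eq_norm, add_sub_cancel_left, pi_norm_const, Real.norm_of_nonneg (g1.2 x hx).le]
  linarith [g3 x hx _ e1.le m (.inr k)]

end P073.B4
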