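import Vale.Agent.P073Y.B4.Sk
import Vale.Agent.P073Y.B.Cube2
import Vale.Agent.P073Y.Zn.Tyz
import Vale.Agent.P073Y.Zn.Modl
import Vale.Agent.P073Y.Zn.Dyn1

/-!
# Small balls and supports, the zones of the second batch, the regions of the auxiliary cores
-/

open Set Metric Topology Filter

namespace P073.B4

open P073.Top P073.Zn P073.B

namespace Tr3

theorem one_int {w : ℝ} (hw : 1 ≤ w) (a : ℝ) :
    ∃ n : ℤ, ∀ j : ℤ, |j * w - a| ≤ 1 / 4 → j = n := by
  by_cases h : ∃ j : ℤ, |j * w - a| ≤ 1 / 4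
  · obtain ⟨n, hn⟩ := h
    refine ⟨n, fun j hj => ?_⟩
    have a1 := abs_le.1 hn
    have a2 := abs_le.1 hj
    have d : ((j : ℝ) - n) < 1 := by
      by_contra hc
      nlinarith [a1.1, a2.2, not_lt.1 hc]
    have e : ((n : ℝ) - j) < 1 := by
      by_contra hc
      nlinarith [a1.2, a2.1, not_lt.1 hc]
    have d' : j - n < 1 := by exact_mod_cast d
    have e' : n - j < 1 := by exact_mod_cast e
    omega
  · exact ⟨0, fun j hj => absurd ⟨j, hj⟩ h⟩

theorem exists_fun (T : E3 ≃ᴬ[ℝ] E3) (k : Fin 3) (a : ℝ) :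
    ∃ ℓ : E3 →ᵃ[ℝ] ℝ, ℓ.linear ≠ 0 ∧ ∀ u, ℓ u = T u k - a := by
  refine ⟨(LinearMap.proj k : E3 →ₗ[ℝ] ℝ).toAffineMap.comp T.toAffineEquiv.toAffineMap -
    AffineMap.const ℝ E3 a, fun h => ?_, fun _ => rfl⟩
  have := AffineMap.linearMap_vsub ((LinearMap.proj k : E3 →ₗ[ℝ] ℝ).toAffineMap.comp
    T.toAffineEquiv.toAffineMap - AffineMap.const ℝ E3 a) (T.symm 1) (T.symm 0)
  rw [h] at this
  change (0 : ℝ) = T (T.symm 1) k - a - (T (T.symm 0) k - a) at this
  simp at this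

end Tr3

open Tr3

theorem tri : TRI := by
  classical
  refine ⟨1 / 512, by norm_num, by norm_num, fun Z y l hl hT => ?_⟩
  choose n hn using fun k => one_int (one_le_wd Z.N_pos k) (Z.T y k)
  choose ℓ h1 h2 using fun k => exists_fun Z.T k (n k * wd Z.N k)
  obtain ⟨c, h3, h4, h5⟩ := Cb.avoid (Finset.univ.image ℓ) (by simpa using h1) y (l / 4)
    (by positivity)
  have h6 : l / 256 ≤ (1 / 4) ^ (Finset.univ.image ℓ).card * (l / 4) := by
    have : (1 / 4 : ℝ) ^ 3 ≤ (1 / 4) ^ (Finset.univ.image ℓ).card :=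
      pow_le_pow_of_le_one (by norm_num) (by norm_num) (Finset.card_image_le.trans (by simp))
    nlinarith
  have h7 : ∀ u ∈ ball c (l / 256), Z.T u ∉ Modl.pln Z.N := fun u hu hp => by
    have k1 := closedBall_subset_closedBall h6 (ball_subset_closedBall hu)
    obtain ⟨k, j, hj⟩ := mem_iUnion.1 hp
    rw [eq_div_iff (one_pos.trans_le (one_le_wd Z.N_pos k)).ne'] at hj
    have k2 := (dist_le_pi_dist _ _ k).trans (hT u y (by linarith [mem_closedBall.1 (h4 k1)]))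
    rw [Real.dist_eq, ← hj] at k2
    refine h5 (ℓ k) (Finset.mem_image_of_mem _ (Finset.mem_univ k)) u k1 ?_
    rw [h2, ← hn k j k2, hj, sub_self]
  obtain ⟨b, hb⟩ := Z.T.symm.toAffineEquiv.toAffineMap.lipschitzWith_of_finiteDimensional
  refine ⟨c, h3, or_iff_not_imp_right.2 fun hd w hw => ?_⟩
  obtain ⟨w₀, k1, k2⟩ := not_disjoint_iff.1 hd
  obtain ⟨z, k3, k4⟩ := D1.mem_supp.1 k2
  rw [mem_closedBall] at k1 hw
  exact D1.mem_supp.2 ⟨z, k3, Modl.inside Z.N_pos Z.T hb h7 (mem_ball.2 (by linarith)) k4 le_rfl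
    (by rw [mul_zero]; positivity) (by linarith)⟩

theorem pa3 : PA3 := by
  intro J k₀ B A v₀ A₁ q l₂ e R P γ
  choose Z h1 _ h2 _ h3 h4 _ using fun m => stdz (P.cov γ m) (P.l m)
    ((A.sh.cpt (by norm_num)).isBounded.subset sdiff_subset) (P.l_pos m)
  refine ⟨⟨Z, h1, h2, h4, fun m y hy => ?_⟩⟩
  obtain ⟨z, ⟨z', k1, k2⟩, k3⟩ := D1.mem_supp.1 hy
  rw [h3] at k1
  obtain ⟨y', k4, k5⟩ := k1
  rw [h2] at k3
  rw [← h1] at k5
  have k6 := Tyz.box_dist (k := 1) le_rfl k2 k3 k5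
  have k7 := Tyz.dist_T (A := id) (v := 0) (P.l_pos m) (T := (Z m).T)
    (fun y => by simpa using h1 m y) y y'
  refine ⟨y', k4, k7.trans_le ?_⟩
  push_cast at k6
  nlinarith [P.l_pos m]

theorem pa3_of (_ : STDZ) : PA3 := pa3

theorem zs : ZS := by
  intro J k₀ B A v₀ A₁ q l₂ e R P
  have h1 : ∀ i m, Disjoint (A.Z i).supp (P.Zo m) := fun i m => disjoint_left.2 fun y k1 k2 =>
    k2.2 (self_subset_thickening (mul_pos q.a_pos (P.l_pos m)) _ (mem_iUnion.2 ⟨i, k1⟩))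
  have h2 : ∀ m m', m < m' → Disjoint (P.Zo m) (P.Zo m') := fun m m' h =>
    (A.sh.disj (by omega) (by norm_num) (by norm_num)).mono sdiff_subset sdiff_subset
  refine ⟨fun i => ?_, fun x hx => ?_, fun i i' h => ?_⟩
  · rcases i with i | m
    · exact ⟨Modl.supp_cpt _,
        ((D1.supp_marg _).trans (A.marg i)).trans (A.sh.sub (by norm_num))⟩
    · exact ⟨(A.sh.cpt (by norm_num)).diff isOpen_thickening,
        sdiff_subset.trans (A.sh.sub (by norm_num))⟩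
  · obtain ⟨U, k1, k2⟩ := A.lf x hx
    obtain ⟨U', k3, k4⟩ := A.sh.lf (46 / 100) (104 / 100) x hx
    refine ⟨U ∩ U', inter_mem k1 k3, ((k2.image Sum.inl).union ((k4.preimage
      (mul_right_injective₀ two_ne_zero).injOn).image Sum.inr)).subset fun i hi => ?_⟩
    obtain ⟨y, k5, k6⟩ := hi
    rcases i with i | m
    · exact .inl ⟨i, ⟨y, D1.supp_marg _ k5, k6.1⟩, rfl⟩
    · exact .inr ⟨m, ⟨y, k5.1, k6.2⟩, rfl⟩
  · rcases i with i | m <;> rcases i' with i' | m'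
    · exact (A.disj i i' fun k => h (congrArg _ k)).mono (D1.supp_marg _) (D1.supp_marg _)
    · exact h1 i m'
    · exact (h1 i' m).symm
    · rcases lt_or_gt_of_ne (fun k => h (congrArg Sum.inr k) : m ≠ m') with k | k
      · exact h2 m m' k
      · exact (h2 m' m k).symm

end P073.B4
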