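import Vale.Agent.P073Y.B4.Tr

/-!
# The zones of both batches in ambient coordinates
-/

open Set Metric Topology Filter MeasureTheory
open scoped NNReal ENNReal

namespace P073.B4

open P073.Top P073.Zn P073.B P073.Zn.Za

theorem dist_le_inv {T : E3 ≃ᴬ[ℝ] E3} {b : ℝ≥0} (hb : LipschitzWith b T.symm) (y y' : E3) :
    dist y y' ≤ b * dist (T y) (T y') := by
  simpa using hb.dist_le_mul (T y) (T y')

/-- certificates in the coordinates `T` -/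
theorem cer_frame {Ω : Set E3} {S : Src Ω} {g : E3 → E3} {G : Set E3} {μ μ' : ℝ}
    {T : E3 ≃ᴬ[ℝ] E3} {b : ℝ≥0} (hb : LipschitzWith b T.symm) (h0 : 0 < b) (hμ : b * μ' ≤ μ)
    (H : Cer S g G μ) : Cer S (T ∘ g) (T '' G) μ' :=
  H.target T.toAffineEquiv fun y y' h => (dist_le_inv hb y y').trans_lt
    ((mul_lt_mul_of_pos_left h (NNReal.coe_pos.2 h0)).trans_le hμ)

theorem image_sdiff_supp (Z : Zone) (G : Set E3) :
    Z.T '' (Z.supp \ G) = ubox Z.N 0 (nbr 1 Z.B) \ Z.T '' G := by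
  rw [image_sdiff Z.T.injective]
  exact congrArg (· \ Z.T '' G) (image_preimage_eq _ Z.T.surjective)

theorem zb4_of {p : ℝ} (h1 : 1 ≤ p) (hZ : ZONE4 p) : ∃ k : Cs, ZB4 p k := by
  obtain ⟨c₀, v₀, c1, hv₀, hZ⟩ := hZ
  choose! C CM hC hZ using hZ
  refine ⟨⟨c₀, v₀, fun θ => cz p (C θ), fun θ => cm p (CM θ),
    fun M θ N t L => ((N : ℝ) / t).toNNReal * (L * L) * CM θ (M * L), c1, hv₀⟩, fun Z v hv => ?_⟩
  obtain ⟨aT, bT, haT, hbT, hT⟩ := Z.cond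
  have t1 := one_le_cond haT hbT
  have a0 : 0 < aT := pos_iff_ne_zero.2 fun h => by simp [h] at t1
  have b0 : 0 < bT := pos_iff_ne_zero.2 fun h => by simp [h] at t1
  have a0' : (0 : ℝ) < aT := a0
  have b0' : (0 : ℝ) < bT := b0
  have fB := nbr_finite Z.fin 1
  obtain ⟨v', v0, hv'⟩ : ∃ v' : ℝ, 0 < v' ∧
      (bT : ℝ≥0∞) ^ 3 * (fB.toFinset.card * ENNReal.ofReal v') ≤ ENNReal.ofReal v := by
    refine ⟨v / (bT ^ 3 * (fB.toFinset.card + 1)), by positivity, ?_⟩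
    rw [← ENNReal.ofReal_natCast, ← ENNReal.ofReal_mul (Nat.cast_nonneg _), ← ENNReal.coe_pow,
      ← ENNReal.ofReal_coe_nnreal, ← ENNReal.ofReal_mul (NNReal.coe_nonneg _)]
    refine ENNReal.ofReal_le_ofReal ?_
    push_cast
    rw [← mul_div_assoc, ← mul_div_assoc, div_le_iff₀ (by positivity)]
    nlinarith [mul_pos hv (pow_pos b0' 3)]
  obtain ⟨δ, hδ, hZ⟩ := hZ Z.θ Z.θ_pos Z.θ_le Z.ϑ Z.N Z.t v' Z.ϑ_pos Z.ϑ_le Z.N_pos Z.t_pos
    Z.t_le v0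
  refine ⟨δ / (aT * bT), by positivity, fun r' hr' => ?_⟩
  obtain ⟨r, hr, hZ⟩ := hZ r' hr'
  refine ⟨r / (aT * bT), bT, by positivity, b0', ?_⟩
  intro Ω Λ S g G μ η Nr ν n 𝓢 ψ a' ι _ m hF hn hΩ hΛ hG μ0 μ1 hη hs hV hCer hO
    ⟨a, b, ha, hb, hL⟩ hM hN
  obtain ⟨n', hF', e1, e2⟩ := nrm_fc n Nr ha hb hL hF hn
  obtain ⟨η₁, η0, η1, hnear⟩ := near_of h1 n'.src (T := hit S g.toFun Z.supp)
    (hit_finite S g (isCompact_supp Z.toZone) hs) hη
  obtain ⟨η', ⟨η2, η3⟩, η4⟩ := (((ev_small (a := (bT * a : ℝ≥0)) ENNReal.coe_ne_top hη).and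
    (ev_small ENNReal.one_ne_top η0)).and self_mem_nhdsWithin).exists
  rw [one_mul] at η3
  have m1 : μ / bT ≤ 1 := (div_le_one b0').2 μ1
  let i1 := ConHomeo.ofAffine ν (IsOpen.conicalSet hΩ)
  let i2 := ConHomeo.ofAffine Z.T (IsOpen.conicalSet hΛ)
  have g1 : ((i1.symm.trans g).trans i2).toFun = Z.T ∘ g.toFun ∘ ν.symm := rfl
  obtain ⟨h', c, G', H, o1, o2, o3⟩ := hZ n'.src ((i1.symm.trans g).trans i2) Z.B (Z.T '' G)
    (μ / bT) η' 𝓢 ψ a' m hF' (ν.toHomeomorph.isOpenMap _ hΩ) (Z.T.toHomeomorph.isOpenMap _ hΛ)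
    Z.fin (Z.T.toHomeomorph.isOpenMap _ hG) (by positivity) m1 η4
    (fun y hy => ⟨Z.T.symm y, hs (by simpa [Zone.supp, ubox] using hy), Z.T.apply_symm_apply y⟩)
    (fun z hz => (measure_mono (sdiff_subset_sdiff_left
      (subset_biUnion_of_mem (u := lbox Z.N 0) hz))).trans (image_sdiff_supp Z.toZone G ▸ hV))
    ((Cer.source n').2 (cer_frame hbT b0 (mul_div_cancel₀ μ b0'.ne').le hCer))
    (by
      rintro φ hφ _ ⟨x, hx, rfl⟩ _ ⟨y, hy, rfl⟩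
      have k := (haT.dist_le_mul _ _).trans (mul_le_mul_of_nonneg_left
        (hO φ ((hit_src n' Z.T g.toFun _).subset hφ) x hx y hy) a0'.le)
      rw [show aT * (r / (aT * bT) * μ) = r * (μ / bT) by field_simp] at k
      simpa [i1, i2, affH, ConHomeo.ofAffine] using k)
    (fun φ hφ => ⟨(hM φ hφ).dim, (hM φ hφ).inj, (hM φ hφ).cell, (hM φ hφ).pos, (hM φ hφ).side⟩)
  rw [g1] at H
  have h2 : ((i1.trans h').trans i2.symm).toFun = Z.T.symm ∘ h'.toFun ∘ ν := rfl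
  have h3 : Z.T ∘ (Z.T.symm ∘ h'.toFun ∘ ν) ∘ ν.symm = h'.toFun := by
    funext x
    simp
  have re : r' * (μ / bT) ≤ r' := mul_le_of_le_one_right hr'.le m1
  have off : ∀ x ∈ Ω, g.toFun x ∉ Z.supp → Z.T.symm (h'.toFun (ν x)) = g.toFun x := by
    intro x hx k
    rw [H.off (ν x) (mem_image_of_mem _ hx) fun k' => k (by
      simpa [Zone.supp, ubox] using interior_subset k')]
    simp
  have nX : ∀ φ ∈ Nr, φ ∉ hit n'.src (Z.T ∘ g.toFun ∘ ν.symm) (thickening (μ / bT) (Z.T '' G)) := by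
    intro φ hφ k
    obtain ⟨x, hx, k⟩ := mem_hit.1 ((hit_src n' _ _ _).subset k)
    obtain ⟨_, ⟨y, hy, rfl⟩, k⟩ := mem_thickening_iff.1 (mem_preimage.1 k)
    refine disjoint_left.1 (hN φ hφ).2 (mem_image_of_mem _ hx) (mem_thickening_iff.2 ⟨y, hy, ?_⟩)
    exact (dist_le_inv hbT _ _).trans_lt
      ((mul_lt_mul_of_pos_left k b0').trans_eq (mul_div_cancel₀ μ b0'.ne'))
  have nB : ∀ φ, φ ∈ hit S g.toFun Z.core →
      φ ∈ hit n'.src (Z.T ∘ g.toFun ∘ ν.symm) (ubox Z.N 0 Z.B) :=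
    fun φ k => (hit_src n' _ _ _).symm.subset k
  refine ⟨(i1.trans h').trans i2.symm, ⟨off, fun x hx z k => ?_, fun φ hφ x hx y hy => ?_,
    Z.T.symm '' G', Z.T.symm.toHomeomorph.isOpenMap _ o1, ?_, ?_⟩, fun φ d3 k => ?_,
    ⟨c, fun _ => C Z.θ, ?_⟩, fun φ hφ d3 => ?_⟩
  · have := H.near (ν x) (mem_image_of_mem _ hx) z (by simpa using k)
    simpa [i1, i2, ConHomeo.ofAffine] using cthickening_mono re _ this
  · obtain ⟨u, hu, k⟩ := mem_hit.1 hφ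
    have k1 := H.osc φ ⟨h'.toFun (ν u), ⟨ν u, maps_src n' φ hu, rfl⟩, by
      simpa [i1, i2, ConHomeo.ofAffine, Zone.supp, ubox] using k⟩ _ (maps_src n' φ hx) _ (maps_src n' φ hy)
    refine (hbT.dist_le_mul _ _).trans ((mul_le_mul_of_nonneg_left k1 b0'.le).trans_eq ?_)
    field_simp
  · have k : Z.supp \ Z.T.symm '' G' ⊆ Z.T.symm '' (⋃ z ∈ fB.toFinset, lbox Z.N 0 z \ G') := by
      intro y hy
      obtain ⟨z, hz, k⟩ := mem_iUnion₂.1 (mem_preimage.1 hy.1)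
      exact ⟨Z.T y, mem_iUnion₂.2 ⟨z, fB.mem_toFinset.2 hz, k,
        fun k1 => hy.2 ⟨_, k1, Z.T.symm_apply_apply y⟩⟩, Z.T.symm_apply_apply y⟩
    refine (measure_mono k).trans
      ((vol_lip hbT _).trans (le_trans (mul_le_mul_right ?_ _) hv'))
    refine (measure_biUnion_finset_le _ _).trans ?_
    rw [← nsmul_eq_mul]
    exact Finset.sum_le_card_nsmul _ _ _ fun z hz => o2 z (fB.mem_toFinset.1 hz)
  · have k : Cer S (h'.toFun ∘ ν) G' (δ * (μ / bT)) := (Cer.source n').1 (by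
      convert o3 using 1
      funext x
      simp)
    exact cer_frame (T := Z.T.symm) haT a0 (le_of_eq (by field_simp)) k
  · have k1 := (fb_of H.ctl (c := φ) d3).amb n' (P := vst Z.N Z.t ∘ Z.T) ha hb
      ((lip_vst Z.N_pos Z.t_pos Z.t_le).comp haT) hbT
      (U := ((Z.N : ℝ) / Z.t).toNNReal * (Z.L * Z.L)) (by
        calc _ = ((Z.N : ℝ) / Z.t).toNNReal * (a * b * (aT * bT)) := by ring
          _ ≤ _ := by gcongr)
    rw [show n'.src.M φ = S.M φ * Z.L from (e2 φ k).2] at k1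
    exact k1.mono le_rfl (nB φ) η2
  · rw [h2, h3]
    refine near_src (n' := n') (ncong (one_pos.trans_le h1) (hnear H η3 (hC _ Z.θ_pos Z.θ_le)
      (up_hit _ _) (fun φ hφ => hit_mono (preimage_mono (biUnion_subset_biUnion_left
        (sub_nbr 1 Z.B))) (hN φ hφ).1) (fun φ hφ => nB φ (hN φ hφ).1) nX)
      (fun φ hφ => (hM φ hφ).cell) Subset.rfl (fun _ _ _ _ => rfl) re le_rfl le_rfl) e1
  · rw [h2, h3]
    have k := H.ctl.gain φ (nB φ (hN φ hφ).1) (Or.inl d3)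
    rw [show n'.src.M φ = n.M φ from (e1 φ hφ).2] at k
    exact k.trans (add_le_add (mul_le_mul_left (ENNReal.coe_le_coe.2 le_add_self) _)
      (η3.trans η1))

theorem eq_of_cen {z z' : Z3} (h : dist (cen z) (cen z') < 1) : z = z' := by
  funext i
  have k := abs_lt.1 ((Real.dist_eq _ _).ge.trans_lt ((dist_le_pi_dist _ _ i).trans_lt h))
  simp only [cen] at k
  have d : z i - z' i < 1 := by exact_mod_cast (by linarith [k.2] : (z i : ℝ) - z' i < 1)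
  have e : z' i - z i < 1 := by exact_mod_cast (by linarith [k.1] : (z' i : ℝ) - z i < 1)
  omega

theorem zb0_of (hZ : ZONE0) : ZB0 := by
  obtain ⟨v₀, hv₀, hZ⟩ := hZ
  refine ⟨v₀, hv₀, fun a ha ha' => ?_⟩
  obtain ⟨C, CM, r, o₀, hr, ho, hZ⟩ := hZ a ha ha'
  refine ⟨CM, r, o₀, hr, ho, ?_⟩
  intro Ω Λ S g Z l η hF hΩ hΛ hl hT hN hη hs hO hH
  choose! c G μ q1 q2 q3 q4 q5 q6 q7 using hH
  lift l to ℝ≥0 using hl.le
  have l0 : 0 < l := hl
  have d1 : ∀ y y', dist (Z.T y) (Z.T y') = (l : ℝ)⁻¹ * dist y y' := fun y y' => by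
    rw [hT, hT, dist_smul₀, Real.norm_of_nonneg (inv_nonneg.2 hl.le)]
  have d2 : ∀ y y', dist (Z.T.symm y) (Z.T.symm y') = l * dist y y' := fun y y' => by
    have := d1 (Z.T.symm y) (Z.T.symm y')
    rw [Z.T.apply_symm_apply, Z.T.apply_symm_apply] at this
    rw [this, mul_inv_cancel_left₀ hl.ne']
  have haT : LipschitzWith l⁻¹ Z.T := .of_dist_le_mul fun y y' => by simp [d1]
  have hbT : LipschitzWith l Z.T.symm := .of_dist_le_mul fun y y' => (d2 y y').le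
  have bl : ∀ z y, Z.T y ∈ closedBall (Z.T (c z)) a ↔ y ∈ closedBall (c z) (a * l) := fun z y => by
    rw [mem_closedBall, mem_closedBall, d1, inv_mul_le_iff₀ hl, mul_comm]
  have cc : ∀ z ∈ nbr 1 Z.B, dist (Z.T (c z)) (cen z) ≤ 1 / 4 := fun z hz => by
    have : cen z = Z.T ((l : ℝ) • cen z) := by rw [hT, inv_smul_smul₀ hl.ne']
    rw [this, d1, inv_mul_le_iff₀ hl]
    linarith [q1 z hz]
  have key : ∀ z ∈ nbr 1 Z.B, (⋃ w ∈ nbr 1 Z.B, Z.T '' G w ∩ ball (cen w) (1 / 2)) ∩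
      closedBall (Z.T (c z)) a = Z.T '' (G z ∩ closedBall (c z) (a * l)) := fun z hz => by
    refine Subset.antisymm ?_ ?_
    · rintro y ⟨k, k3⟩
      obtain ⟨w, -, ⟨u, k1, rfl⟩, k2⟩ := mem_iUnion₂.1 k
      obtain rfl : w = z := eq_of_cen (by
        linarith [dist_triangle4 (cen w) (Z.T u) (Z.T (c z)) (cen z), mem_ball'.1 k2,
          mem_closedBall.1 k3, cc z hz])
      exact ⟨u, ⟨k1, (bl _ u).1 k3⟩, rfl⟩
    · rintro _ ⟨u, ⟨k1, k2⟩, rfl⟩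
      have k3 := (bl z u).2 k2
      refine ⟨mem_biUnion hz ⟨⟨u, k1, rfl⟩, mem_ball.2 ?_⟩, k3⟩
      linarith [dist_triangle (Z.T u) (Z.T (c z)) (cen z), mem_closedBall.1 k3, cc z hz]
  have su : ∀ y, Z.T y ∈ ubox 1 0 (nbr 1 Z.B) ↔ y ∈ Z.supp := fun y => by
    rw [Zone.supp, hN]
    rfl
  obtain ⟨η', η2, η4⟩ := ((ev_small (a := l) ENNReal.coe_ne_top hη).and
    self_mem_nhdsWithin).exists
  let i2 := ConHomeo.ofAffine Z.T (IsOpen.conicalSet hΛ)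
  have g1 : (g.trans i2).toFun = Z.T ∘ g.toFun := rfl
  have os : ∀ {W W' : Set E3} {o : ℝ}, (∀ y, Z.T y ∈ W' → y ∈ W) → S.Osc g.toFun W (o * l) →
      S.Osc (Z.T ∘ g.toFun) W' o := fun hW k φ hφ x hx y hy => by
    obtain ⟨u, hu, k1⟩ := (mem_hit (S := S)).1 hφ
    have := k φ (mem_hit.2 ⟨u, hu, hW _ k1⟩) x hx y hy
    simp only [Function.comp, d1]
    rwa [inv_mul_le_iff₀ hl, mul_comm]
  have vo : ∀ z ∈ nbr 1 Z.B, volume (closedBall (Z.T (c z)) a \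
      ⋃ w ∈ nbr 1 Z.B, Z.T '' G w ∩ ball (cen w) (1 / 2)) ≤ ENNReal.ofReal (v₀ * a ^ 3) := by
    intro z hz
    have k : closedBall (Z.T (c z)) a \ ⋃ w ∈ nbr 1 Z.B, Z.T '' G w ∩ ball (cen w) (1 / 2) ⊆
        Z.T '' (closedBall (c z) (a * l) \ G z) := fun y hy => by
      obtain ⟨u, rfl⟩ := Z.T.surjective y
      have k1 := (bl z u).1 hy.1
      exact ⟨u, ⟨k1, fun k2 => hy.2 ((key z hz).ge ⟨u, ⟨k2, k1⟩, rfl⟩).1⟩, rfl⟩
    refine (measure_mono k).trans ((vol_lip haT _).trans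
      ((mul_le_mul_right (q5 z hz) _).trans_eq ?_))
    rw [← ENNReal.coe_pow, ← ENNReal.ofReal_coe_nnreal,
      ← ENNReal.ofReal_mul (NNReal.coe_nonneg _)]
    congr 1
    push_cast
    field_simp
  obtain ⟨h', o1, o2, o3⟩ := hZ S (g.trans i2) Z.B
    (⋃ w ∈ nbr 1 Z.B, Z.T '' G w ∩ ball (cen w) (1 / 2)) (fun z => Z.T (c z)) (fun z => μ z / l) η'
    hF hΩ (Z.T.toHomeomorph.isOpenMap _ hΛ) Z.fin
    (isOpen_biUnion fun w hw => (Z.T.toHomeomorph.isOpenMap _ (q2 w hw)).inter isOpen_ball) η4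
    (fun y hy => ⟨Z.T.symm y, hs ((su _).1 (by simpa using hy)), Z.T.apply_symm_apply y⟩)
    (os (fun y => (su y).1) hO) fun z hz => ⟨cc z hz, div_pos (q3 z hz) hl,
      (div_le_one hl).2 (q4 z hz), vo z hz,
      key z hz ▸ cer_frame hbT l0 (mul_div_cancel₀ _ hl.ne').le (q6 z hz),
      os (fun y => (bl z y).1) (by
        rw [mul_assoc, div_mul_cancel₀ _ hl.ne']
        exact q7 z hz)⟩
  rw [g1] at o1 o2 o3
  refine ⟨h'.trans i2.symm, fun x hx k => ?_, fun x hx => ?_, fun φ d3 => ?_⟩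
  · show Z.T.symm (h'.toFun x) = _
    rw [o1 x hx fun k' => k ((su _).1 (interior_subset k'))]
    exact Z.T.symm_apply_apply _
  · show dist (Z.T.symm (h'.toFun x)) _ ≤ _
    rw [← Z.T.symm_apply_apply (g.toFun x), d2, mul_comm]
    exact mul_le_mul_of_nonneg_right (o2 x hx) hl.le
  · have k := (fb_of o3 d3).amb₀ haT hbT (inv_mul_cancel₀ l0.ne').le
    rw [one_mul] at k
    refine k.mono le_rfl (fun k1 => ?_) η2
    rw [hit_comp]
    rwa [Zone.core, hN] at k1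

end P073.B4
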