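import Vale.Agent.P073Y.B4.Main
import Vale.Agent.P073Y.B4.Zb
import Vale.Agent.P073Y.B4.Tri
import Vale.Agent.P073Y.B4.Par
import Vale.Agent.P073Y.B4.Dy1
import Vale.Agent.P073Y.B4.Dy3
import Vale.Agent.P073Y.B4.Act
import Vale.Agent.P073Y.B.Affa
import Vale.Agent.P073Y.B.ZAll
import Vale.Agent.P073Y.Zn.T1
import Vale.Agent.P073Y.Zn.Fitw
import Vale.Agent.P073Y.Zn.Tyz
import Vale.Agent.P073Y.Zn.St1

/-!
# The two batches for exponents from three on, without hypotheses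
-/

namespace P073.B4

open P073.Zn P073.B

theorem batch4_of' {p : ℝ} (hp : 1 ≤ p) (h4 : ZONE4 p) (h0 : ZONE0) : BATCH4 p := by
  have h : 0 < p := one_pos.trans_le hp
  obtain ⟨k, hk⟩ := zb4_of hp h4
  exact batch4_of hk (zb0_of h0) tri (st1_of shls (tyz nullt) stdz fit1 excl) (pa1_of gauge3)
    (pa2_of gauge3) pa3 zs dy1 dy2 dy3 (act h) affa (ncong h) nrm_ok

theorem batch4 {p : ℝ} (hp : 1 ≤ p) : BATCH4 p := batch4_of' hp (zone4 hp) zone0

end P073.B4
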