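import Vale.Agent.P073Y.B4.Sk
import Vale.Agent.P073Y.B.Cer
import Vale.Agent.P073Y.Zn.Cl

/-!
# The second batch can run
-/

open Set Metric Topology Filter MeasureTheory
open scoped NNReal ENNReal

namespace P073.B4

open P073.Top P073.Zn P073.B

namespace Y2

variable {J : Type} {k₀ : Cst} {B : Base J} {A : St1 k₀ B} {v₀ : ℝ} {A₁ : P1 A v₀}
  {q : C0} {l₂ e : ℝ} {R : J ⊕ ℕ → ℝ → ℝ → ℝ → ℝ → ℝ → Prop} {P : P2 A₁ q l₂ e R}
  {S : Src B.Ω} {g h : E3 → E3} {γ Γ D : Set E3} {G₁ : J ⊕ ℕ → Set E3} {μ₁ : J ⊕ ℕ → ℝ}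
  {G₂ : ℕ → Set E3} {μ₂ : ℕ → ℝ}

theorem a_le (q : C0) : q.a ≤ 1 / 100 := q.a_le.trans q.a₀_le

theorem al (q : C0) {l : ℝ} (hl : 0 < l) :
    0 < q.a * l ∧ q.a * l ≤ l / 100 ∧ q.ω * l ≤ q.a * l / 2 ∧ q.a * l ≤ q.a₀ * l ∧
      q.a₀ * l ≤ l / 100 :=
  ⟨mul_pos q.a_pos hl, by nlinarith [a_le q], by nlinarith [q.ω_a], by nlinarith [q.a_le],
    by nlinarith [q.a₀_le]⟩

/-- a point of an even shell and of an enlarged shell of the first batch -/
theorem adj {i : J ⊕ ℕ} {m : ℕ} {y : E3} (h1 : y ∈ shl B.Λ A.d₀ (lev i) (48 / 100) (102 / 100))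
    (h2 : y ∈ shl B.Λ A.d₀ (2 * m) (45 / 100) (105 / 100)) : Adj i m := by
  constructor <;> by_contra hn
  · exact disjoint_left.1 (A.sh.disj (by omega) (by norm_num) (by norm_num)) h1 h2
  · exact disjoint_left.1 (A.sh.disj (by omega) (by norm_num) (by norm_num)) h2 h1

theorem gam (H : Hy P S g γ Γ D G₁ μ₁ G₂ μ₂) {y : E3} (hy : y ∈ Γ) :
    y ∈ shl B.Λ A.d₀ 0 2 0 ∧ ∀ i, y ∉ (A.Z i).marg 2 := by
  obtain ⟨u, hu, rfl⟩ := H.sub hy
  exact ⟨A.far u hu, A.sep u hu (fun j hj => disjoint_left.1 (H.disj j) hy ⟨u, hj, rfl⟩) _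
    (by rw [dist_self]; exact A.s₀_pos.le)⟩

theorem m_zero (H : Hy P S g γ Γ D G₁ μ₁ G₂ μ₂) {y y' : E3} (hy : y ∈ Γ) (hd : dist y' y ≤ A.d₀)
    {m : ℕ} (h2 : y' ∈ shl B.Λ A.d₀ (2 * m) (45 / 100) (105 / 100)) : m = 0 := by
  by_contra hm
  exact disjoint_left.1 (A.sh.disj₀ (k' := 2 * m) (by omega) (by norm_num) (by norm_num))
    (A.sh.move (c := 1) (gam H hy).1 (by rwa [ClA.dk_zero, one_mul])) h2

theorem same (L : Lay4 P S μ₁ g h) {x : E3} (hx : x ∈ B.Ω) (hs : ∀ i, h x ∉ (A.Z i).supp) :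
    h x = g x := L.off x hx fun i hi => hs i ((L.mem i x hx).2 hi)

/-- the oscillation on the cells which meet a zone of the first batch -/
theorem osc_in (L : Lay4 P S μ₁ g h) {i : J ⊕ ℕ} {c : S.Q.ι} (hc : c ∈ hit S g (A.Z i).supp) :
    OscC S h c (P.r' i * μ₁ i) := fun x hx y hy => by
  obtain ⟨h', h1, h2⟩ := L.geo i
  obtain ⟨u, u1, u2⟩ := mem_hit.1 hc
  rw [h2 c hc hx, h2 c hc hy]
  exact h1.osc c ⟨_, ⟨u, u1, rfl⟩, h2 c hc u1 ▸ (L.mem i u (cell_sub c u1)).2 u2⟩ x hx y hy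

theorem osc (H : Hy P S g γ Γ D G₁ μ₁ G₂ μ₂) (L : Lay4 P S μ₁ g h) (m : ℕ) :
    S.Osc h (shl B.Λ A.d₀ (2 * m) (45 / 100) (105 / 100)) (q.ω * P.l m) := by
  rintro c ⟨_, ⟨x₀, h0, rfl⟩, h1⟩
  by_cases hc : ∃ i, c ∈ hit S g (A.Z i).supp
  · obtain ⟨i, hi⟩ := hc
    have a1 : ∀ m', Adj i m' → OscC S h c (q.ω * P.l m') := fun m' hm x hx y hy =>
      (osc_in L hi x hx y hy).trans ((mul_le_mul_of_nonneg_left (H.aux₁ i).le
        (P.pos i).2.1.le).trans (P.mm_r i m' hm))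
    obtain ⟨u, u1, u2⟩ := mem_hit.1 hi
    have a2 := A.marg i (ClA.supp_marg _ ((L.mem i u (cell_sub c u1)).2 u2))
    have a3 := a1 ((lev i + 1) / 2) ⟨by omega, by omega⟩ x₀ h0 u u1
    have a4 := ClA.dk_le A.d_pos (n := lev i) (n' := 2 * ((lev i + 1) / 2)) (by omega)
    obtain ⟨b1, b2, b3, -⟩ := al q (P.l_pos ((lev i + 1) / 2))
    refine a1 m (adj (A.sh.mono (by norm_num) (by norm_num)
      (A.sh.move (c := 1 / 100) a2 ?_)) h1)
    linarith [P.l_d ((lev i + 1) / 2), ClA.dk_pos A.d_pos (lev i)]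
  have e : EqOn h g (S.Q.cell c) := fun x hx => L.off x (cell_sub c hx) fun i hi =>
    hc ⟨i, mem_hit.2 ⟨x, hx, hi⟩⟩
  rw [e h0] at h1
  intro x hx y hy
  rw [e hx, e hy]
  rcases H.osc c with a1 | ⟨a1, a2⟩
  · have a2 := (A₁.close x₀ (cell_sub c h0) _ (H.cl x₀ (cell_sub c h0))).2.1 (2 * m)
      (.inl (A.sh.mono (by norm_num) (by norm_num) h1))
    have a3 := P.o_le m x₀ (cell_sub c h0) (A.sh.mono (by norm_num) (by norm_num)
      (A.sh.move (c := 1 / 1000) h1 (by rw [dist_comm]; linarith)))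
    linarith [dist_triangle_right (g x) (g y) (g x₀), a1 x hx x₀ h0, a1 y hy x₀ h0]
  · obtain ⟨u, u1, u2⟩ := mem_hit.1 a1
    obtain ⟨b1, b2, b3, -⟩ := al q (P.l_zero ▸ P.l_pos 0)
    obtain rfl := m_zero H u2 ((a2 x₀ h0 u u1).trans (by
      linarith [P.l_le, A₁.l_s, A.s₀_d, A.d_pos])) h1
    rw [P.l_zero]
    exact a2 x hx y hy

theorem thick {G : Set E3} {c y : E3} {r μ : ℝ} (hy : y ∈ thickening μ (G ∩ closedBall c r)) :
    dist y c ≤ μ + r := by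
  obtain ⟨w, h1, h2⟩ := mem_thickening_iff.1 hy
  linarith [dist_triangle y w c, mem_closedBall.1 h1.2]

/-- a hole away from the first batch and from the main cores -/
theorem beta (H : Hy P S g γ Γ D G₁ μ₁ G₂ μ₂) (L : Lay4 P S μ₁ g h) {m : ℕ} {z : Z3} {c : E3}
    (hc : dist c (P.l m • cen z) ≤ P.l m / 4)
    (hs : closedBall c (P.l m) ⊆ shl B.Λ A.d₀ (2 * m) (46 / 100) (104 / 100))
    (h1 : ∀ i, Disjoint (closedBall c (2 * q.a * P.l m)) (A.Z i).supp)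
    (h2 : Disjoint (closedBall c (q.a * P.l m)) Γ) : Hole S h (P.l m) q.a q.v₀ q.r z := by
  obtain ⟨b1, b2, b3, -⟩ := al q (P.l_pos m)
  have X := H.aux₂ m
  have a0 : ∀ x ∈ B.Ω, dist (h x) c ≤ 2 * q.a * P.l m → h x = g x := fun x hx hd =>
    same L hx fun i => disjoint_left.1 (h1 i) hd
  have a1 : closedBall c (q.a * P.l m) ⊆ P.Zo m := fun y hy =>
    ⟨hs (closedBall_subset_closedBall (by linarith) hy), fun hn => by
      obtain ⟨w, w1, w2⟩ := mem_thickening_iff.1 hn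
      obtain ⟨i, hi⟩ := mem_iUnion.1 w1
      exact disjoint_left.1 (h1 i) (mem_closedBall.2 (by
        linarith [dist_triangle_left w c y, mem_closedBall.1 hy])) hi⟩
  refine ⟨c, G₂ m, μ₂ m, hc, X.opn, X.pos, X.le.trans (by linarith),
    le_trans (measure_mono fun y hy => And.intro (a1 hy.1) ?_) X.vol,
    (X.cer.mono inter_subset_left le_rfl).congr fun x hx hd =>
      (a0 x hx (by linarith [thick hd, X.le])).symm, ?_⟩
  · rintro ((a2 | a2) | a2)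
    · exact hy.2 a2
    · exact disjoint_left.1 h2 hy.1 a2
    · obtain ⟨j, u, hu, rfl⟩ := mem_iUnion.1 a2
      obtain ⟨w, w1, w2⟩ := (A₁.close u hu.1 (B.f u) (by
        rw [dist_self]; exact (A₁.gauge.2 u hu.1).le)).2.2 j hu.2
      exact disjoint_left.1 (h1 (.inl j)) (closedBall_subset_closedBall (by linarith) hy.1)
        (mem_biUnion (sub_nbr 1 _ (w1 (sub_nbr 1 _ rfl))) w2)
  · rintro φ ⟨_, ⟨x₀, h0, rfl⟩, a2⟩
    have a3 := osc H L m φ ⟨_, ⟨x₀, h0, rfl⟩, A.sh.mono (by norm_num) (by norm_num) (a1 a2).1⟩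
    have e : EqOn h g (S.Q.cell φ) := fun x hx => a0 x (cell_sub φ hx) (by
      linarith [dist_triangle (h x) (h x₀) c, a3 x hx x₀ h0, mem_closedBall.1 a2])
    intro x hx y hy
    rw [e hx, e hy]
    exact X.osc φ (mem_hit.2 ⟨x₀, h0, e h0 ▸ ⟨a1 a2, disjoint_left.1 h2 a2⟩⟩) x hx y hy

/-- a hole inside a zone of the first batch -/
theorem alpha (H : Hy P S g γ Γ D G₁ μ₁ G₂ μ₂) (L : Lay4 P S μ₁ g h) {m : ℕ} {z : Z3} {c : E3}
    (hc : dist c (P.l m • cen z) ≤ P.l m / 4) {i : J ⊕ ℕ} (hi : Adj i m)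
    (h1 : closedBall c (2 * q.a * P.l m) ⊆ (A.Z i).supp) : Hole S h (P.l m) q.a q.v₀ q.r z := by
  obtain ⟨b1, b2, -⟩ := al q (P.l_pos m)
  obtain ⟨h', g1, g2⟩ := L.geo i
  obtain ⟨G, c1, c2, c3⟩ := g1.cer
  have X := H.aux₁ i
  have a1 : P.δ i * μ₁ i ≤ q.a * P.l m :=
    (mul_le_mul_of_nonneg_left X.le (P.pos i).1.le).trans (P.mm_δ i m hi)
  have a2 : closedBall c (q.a * P.l m) ⊆ (A.Z i).supp :=
    (closedBall_subset_closedBall (by linarith)).trans h1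
  refine ⟨c, G, P.δ i * μ₁ i, hc, c1, mul_pos (P.pos i).1 X.pos, by linarith,
    (measure_mono (sdiff_subset_sdiff_left a2)).trans
      (c2.trans (ENNReal.ofReal_le_ofReal (P.v_le i m hi))),
    (c3.mono inter_subset_left le_rfl).congr fun x hx hd => ?_, ?_⟩
  · obtain ⟨φ, hφ⟩ := ClA.exists_cell S hx
    exact (g2 φ (mem_hit.2 ⟨x, hφ, (L.mem i x hx).1
      (h1 (mem_closedBall.2 (by linarith [thick hd])))⟩) hφ).symm
  · rintro φ ⟨_, ⟨x₀, h0, rfl⟩, a3⟩ x hx y hy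
    refine (osc_in L (mem_hit.2 ⟨x₀, h0, (L.mem i x₀ (cell_sub φ h0)).1 (a2 a3)⟩)
      x hx y hy).trans ?_
    rw [← mul_assoc]
    exact mul_le_mul_of_nonneg_right (P.r_δ i) X.pos.le

theorem cen_mem (z : Z3) : cen z ∈ lbox 1 0 z := mem_lbox.2 fun i => by
  have w : wd 1 i = 1 := by fin_cases i <;> simp [wd]
  rw [w, cen]
  constructor <;> linarith

end Y2

open Y2 in
theorem dy2 : DY2 := by
  intro J k₀ B A v₀ A₁ q l₂ e R P S g h γ Γ D G₁ μ₁ G₂ μ₂ P₃ H L m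
  refine ⟨osc H L m, fun z hz => ?_⟩
  have hl := P.l_pos m
  obtain ⟨b1, b2, b3, b4, b5⟩ := al q hl
  obtain ⟨y', y1, y2⟩ := P₃.supp m (P.l m • cen z) (mem_biUnion hz (by
    rw [P₃.T_eq, P₃.N_eq, inv_smul_smul₀ hl.ne']
    exact cen_mem z))
  have hs : ∀ y, dist y (P.l m • cen z) ≤ 2 * P.l m →
      y ∈ shl B.Λ A.d₀ (2 * m) (46 / 100) (104 / 100) := fun y hy =>
    A.sh.mono (by norm_num) (by norm_num) (A.sh.move (c := 1 / 100) y1.1 (by
      linarith [dist_triangle y (P.l m • cen z) y', P.l_d m]))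
  have hs' : ∀ y, dist y (P.l m • cen z) ≤ 2 * P.l m →
      y ∈ shl B.Λ A.d₀ (2 * m) (45 / 100) (105 / 100) := fun y hy =>
    A.sh.mono (by norm_num) (by norm_num) (hs y hy)
  have tr : ∀ {c y : E3} {r : ℝ}, dist c (P.l m • cen z) ≤ P.l m / 4 → y ∈ closedBall c r →
      dist y (P.l m • cen z) ≤ r + P.l m / 4 := fun {c y r} h1 h2 => by
    linarith [dist_triangle y c (P.l m • cen z), mem_closedBall.1 h2]
  have be := fun c hc => beta H L (z := z) (c := c) hc fun y hy => hs y (by linarith [tr hc hy])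
  by_cases hA : ∃ i, ∃ s ∈ (A.Z i).supp, dist s (P.l m • cen z) ≤ P.l m
  · obtain ⟨i, s, s1, s2⟩ := hA
    have hi : Adj i m := adj (A.sh.mono (by norm_num) (by norm_num)
      (A.marg i (ClA.supp_marg _ s1))) (hs' s (by linarith))
    obtain ⟨c, c1, c2⟩ := q.tri (A.Z i).toZone (P.l m • cen z) _ hl (P.lT i m hi)
    have a1 : closedBall c (2 * q.a * P.l m) ⊆ (A.Z i).marg 2 := fun y hy => by
      obtain ⟨w, w1, w2⟩ := mem_iUnion₂.1 s1
      exact mem_biUnion w1 (lbox_mono _ (by norm_num) w (lbox_dist w2 (P.lT i m hi y s (by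
        linarith [dist_triangle_right y s (P.l m • cen z), tr c1 hy]))))
    refine c2.elim (alpha H L c1 hi) fun c2 => be c c1 (fun j => ?_)
      (disjoint_left.2 fun y hy hy' => (gam H hy').2 i
        (a1 (closedBall_subset_closedBall (by linarith) hy)))
    by_cases hj : i = j
    · exact hj ▸ c2
    · exact (A.disj i j hj).mono a1 (ClA.supp_marg _)
  have hB : ∀ c, dist c (P.l m • cen z) ≤ P.l m / 4 → ∀ i,
      Disjoint (closedBall c (P.l m / 2)) (A.Z i).supp := fun c hc i =>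
    disjoint_left.2 fun y hy hy' => hA ⟨i, y, hy', by linarith [tr hc hy]⟩
  have be' := fun c hc => be c hc fun i => (hB c hc i).mono_left
    (closedBall_subset_closedBall (by linarith))
  by_cases hm : m = 0
  · subst hm
    have M : Main S g q.a₀ (P.l 0) γ Γ D := P.l_zero.symm ▸ H.main
    obtain ⟨c, c1, c2⟩ := M.ball (P.l 0 • cen z)
    replace c1 : dist c (P.l 0 • cen z) ≤ P.l 0 / 4 := by linarith
    refine c2.elim (fun c2 => ?_) fun c2 => be' c c1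
      (c2.mono_left (closedBall_subset_closedBall b4))
    refine ⟨c, γ, q.a₀ * P.l 0, c1, H.main.opn, by linarith, by linarith, ?_,
      (M.cer.mono inter_subset_left le_rfl).congr
        fun x hx hd => (same L hx fun i => disjoint_left.1 (hB c c1 i)
          (mem_closedBall.2 (by linarith [thick hd]))).symm, fun φ hφ x hx y hy => ?_⟩
    · rw [sdiff_eq_empty.2 ((closedBall_subset_closedBall b4).trans c2), measure_empty]
      exact zero_le
    · refine (osc H L 0 φ (hφ.mono (inter_subset_inter_right _ fun y hy =>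
        hs' y (by linarith [tr c1 hy]))) x hx y hy).trans ?_
      rw [← mul_assoc]
      exact mul_le_mul_of_nonneg_right q.ω_r hl.le
  · exact be' _ (by rw [dist_self]; linarith) (disjoint_left.2 fun y hy hy' => hm
      (m_zero H hy' (by rw [dist_self]; exact A.d_pos.le)
        (hs' y (by linarith [mem_closedBall.1 hy]))))

end P073.B4
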