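import Vale.Agent.P073Y.B4.Sk
import Vale.Agent.P073Y.B.Lay
import Vale.Agent.P073Y.Zn.Batch
import Vale.Agent.P073Y.Zn.Layer

/-!
# The two batches for exponents from three on: assembly
-/

open Set Metric Topology Filter MeasureTheory
open scoped NNReal ENNReal

namespace P073.B4

open P073.Top P073.Zn P073.B

namespace Mn

variable {Ω Λ : Set E3}

theorem tri_mono {a a' : ℝ} (h : Tri a) (ha : a' ≤ a) : Tri a' := fun Z y l hl hT => by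
  obtain ⟨c, h1, h2⟩ := h Z y l hl hT
  have e : closedBall c (a' * l) ⊆ closedBall c (a * l) :=
    closedBall_subset_closedBall (mul_le_mul_of_nonneg_right ha hl.le)
  exact ⟨c, h1, h2.imp e.trans (·.mono_left e)⟩

theorem fb_congr {S : Src Ω} {g h h' : E3 → E3} {K : ℝ≥0} {η : ℝ≥0∞} {H : Prop} {c : S.Q.ι}
    (F : Fb S g h K η H c) (e : EqOn h' h (S.Q.cell c)) : Fb S g h' K η H c :=
  ⟨A_congr e ▸ F.sum, lipc_congr e ▸ F.keep, fun k => lipc_congr e ▸ F.gain k⟩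

theorem disj_of (S : Src Ω) (g : ConHomeo Ω Λ) {M M' : Set E3} (hs : M ⊆ Λ)
    (h : Disjoint (hit S g.toFun M) (hit S g.toFun M')) : Disjoint M M' :=
  disjoint_left.2 fun y h1 h2 => by
    obtain ⟨φ, hφ⟩ := mem_iUnion.1 (S.carrier.symm.subset (g.mapsTo_inv (hs h1)))
    exact disjoint_left.1 h ⟨y, ⟨_, hφ, g.right_inv (hs h1)⟩, h1⟩
      ⟨y, ⟨_, hφ, g.right_inv (hs h1)⟩, h2⟩

theorem lf_comp {α β : Type} {X : α → Set E3} (h : LFIn X Λ) {E : β → α}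
    (hE : Function.Injective E) {Y : β → Set E3} (hY : ∀ b, Y b ⊆ X (E b)) : LFIn Y Λ :=
  fun y hy =>
    let ⟨U, hU, hf⟩ := h y hy
    ⟨U, hU, (hf.preimage hE.injOn).subset fun b hb => hb.mono (inter_subset_inter_left _ (hY b))⟩

end Mn

open Mn in
theorem batch4_of {p : ℝ} {k : Cs} (h4 : ZB4 p k) (h0 : ZB0) (hT : TRI) (h1 : ST1) (a1 : PA1)
    (a2 : PA2) (a3 : PA3) (hz : ZS) (d1 : DY1) (d2 : DY2) (d3 : DY3) (hA : ACT p) (hF : AFFA)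
    (hG : NCONG p) (hN : NRM) : BATCH4 p := by
  classical
  intro a₀ ha0 ha1
  obtain ⟨v₀, v0, h0⟩ := h0
  obtain ⟨a₁, b0, b1, hT⟩ := hT
  have c0 : 0 < min a₀ (a₁ / 2) := lt_min ha0 (by linarith)
  obtain ⟨K, r, o₀, r0, o0, h0⟩ := h0 (min a₀ (a₁ / 2)) c0
    ((min_le_left _ _).trans (by linarith))
  let q : C0 := ⟨a₀, min a₀ (a₁ / 2), v₀, r, o₀, min (min o₀ (min a₀ (a₁ / 2) / 2)) (r * a₀),
    ha1, c0, min_le_left _ _, tri_mono hT (by linarith [min_le_right a₀ (a₁ / 2)]), v0, r0,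
    by positivity, (min_le_left _ _).trans (min_le_left _ _),
    (min_le_left _ _).trans (min_le_right _ _), min_le_right _ _⟩
  obtain ⟨Df, hF⟩ := hF
  choose Cu Ct hA using fun M₀ => hA (K M₀) (k.Ca M₀ (1 / 1000) 1 (1 / 4) 1) (Df M₀)
  refine ⟨k.c₀, q.ω, k.Cz, k.CM, Cu, fun M₀ θ N t L => Ct M₀ * (k.Ca M₀ θ N t L + 1) ^ p,
    k.c_ge, q.ω_pos, ?_⟩
  intro Ω Λ Ω₀ f f' ε J _ Y hΩ hΛ hb hf hε hc hs hK hY
  let B : Base J := ⟨Ω, Λ, Ω₀, f, f', ε, Y, inferInstance, hΩ, hΛ, hb, hf, hε, hc, hs, hK, hY⟩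
  obtain ⟨A⟩ := h1 ⟨0, 0, 0, 0, 0, 0⟩ B
  obtain ⟨A₁⟩ := a1 A k.v₀ k.v_pos
  choose l v hl using fun j => (A.ty j).1
  refine ⟨l, v, fun j => (A.Z (.inl j)).T, fun j => (A.Z (.inl j)).B, A₁.s, A₁.l₀, A₁.o₁,
    A₁.s_pos, A₁.l_pos, A₁.gauge, fun j => ⟨(hl j).1, (hl j).2, (A.ty j).2.1⟩, ?_⟩
  intro l₂ e l0 l1 e0
  obtain ⟨P⟩ := a2 A₁ q l₂ e (fun i => Run4 p k (A.Z i)) k.v_pos l0 l1 e0
    fun i v hv => h4 (A.Z i) v hv
  obtain ⟨E⟩ : Nonempty (ℕ ≃ (J ⊕ ℕ) ⊕ ℕ) := nonempty_equiv_of_countable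
  obtain ⟨z1, z2, z3⟩ := hz P
  have ql : ∀ m, 0 < q.a * P.l m := fun m => mul_pos q.a_pos (P.l_pos m)
  refine ⟨fun n => P.Zs (E n), fun n => Sum.elim P.vv (fun m => q.v₀ * (q.a * P.l m) ^ 3) (E n),
    fun n => Sum.elim P.rr (fun _ => q.r) (E n),
    fun n => Sum.elim P.mm (fun m => q.a * P.l m) (E n), P.o, P.gauge,
    fun n => ⟨(z1 _).1, (z1 _).2, ?_⟩, lf_comp z2 E.injective fun _ => Subset.rfl,
    fun n n' h => z3 _ _ (E.injective.ne h), ?_⟩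
  · beta_reduce
    rcases E n with i | m
    · exact ⟨(P.pos i).2.2.2.2, (P.pos i).2.2.1, (P.pos i).2.2.2.1⟩
    · exact ⟨mul_pos q.v_pos (pow_pos (ql m) 3), q.r_pos, ql m⟩
  intro S g M₀ w Nr ν n η 𝓢 ψ a ι _ m γ Γ D G μ hS hn hη hM hΓ hΓG hX hosc hcl hnr hfar
  have hX' : ∀ b, Aux S g.toFun (P.Zs b) Γ (Ex B A₁.s) (G (E.symm b))
      (Sum.elim P.vv (fun m => q.v₀ * (q.a * P.l m) ^ 3) b) (Sum.elim P.rr (fun _ => q.r) b)
      (Sum.elim P.mm (fun m => q.a * P.l m) b) (μ (E.symm b)) := fun b => by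
    have := (hX (E.symm b)).1
    beta_reduce at this
    rwa [E.apply_symm_apply] at this
  set G₁ : J ⊕ ℕ → Set E3 := fun i => G (E.symm (.inl i))
  set μ₁ : J ⊕ ℕ → ℝ := fun i => μ (E.symm (.inl i))
  have H : Hy P S g.toFun γ Γ D G₁ μ₁ (fun m => G (E.symm (.inr m)))
      fun m => μ (E.symm (.inr m)) :=
    ⟨g.mapsTo, hM, hΓ, hΓG, fun i => hX' (.inl i), fun m => hX' (.inr m), hosc, hcl⟩
  obtain ⟨e1, e2, e3, e4⟩ := d1 H
  have sΛ : ∀ i, (A.Z i).supp ⊆ Λ := fun i => (z1 (.inl i)).2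
  have box : ∀ j, ∀ φ ∈ Nr j, ∀ u ∈ S.Q.cell φ, ∃ z, nbr 1 {z} ⊆ (A.Z (.inl j)).B ∧
      (A.Z (.inl j)).T (g.toFun u) ∈ lbox (A.Z (.inl j)).N 0 z := fun j φ hφ u hu =>
    (A₁.close u (cell_sub φ hu) _ (hcl u (cell_sub φ hu))).2.2 j ((hnr j).2.1 φ hφ hu)
  have cor : ∀ j, ∀ φ ∈ Nr j, ∀ u ∈ S.Q.cell φ, g.toFun u ∈ (A.Z (.inl j)).core :=
    fun j φ hφ u hu =>
      let ⟨z, z1, z2⟩ := box j φ hφ u hu
      mem_biUnion (z1 (sub_nbr 1 _ rfl)) z2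
  set El : Set S.Q.ι := {c ∈ Far3 S Nr | ¬ g.toFun '' S.Q.cell c ⊆ D} with hEl
  obtain ⟨η₁, t1, hA⟩ := hA M₀ S El w (fun i => hit S g.toFun (A.Z i).supp) η hη
    (fun c hc => (hfar c hc.1).2) fun i => hit_finite S g (z1 (.inl i)).1 (sΛ i)
  obtain ⟨n₀⟩ := exists_nrm hN S
  choose ha ga fa na using fun j => P.run (.inl j) S g (G₁ (.inl j)) (μ₁ (.inl j)) (η₁ (.inl j))
    (Nr j) (ν j) (n j) (𝓢 j) (ψ j) (a j) (m j) hS (fun _ => hn j) hΩ hΛ (H.aux₁ _).opn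
    (H.aux₁ _).pos ((H.aux₁ _).le.trans (P.mm_le _)) (t1 _).1 (sΛ _) (e2 _).1 (H.aux₁ _).cer
    (e2 _).2 ((A.ty j).2.2.2.2.2.2 ▸ (hnr j).1)
    (fun φ hφ => (A.ty j).2.2.2.2.1 ▸ (hnr j).2.2 φ hφ) fun c hc =>
      ⟨let ⟨u, hu⟩ := S.Q.cell_nonempty c; mem_hit.2 ⟨u, hu, cor j c hc u hu⟩,
        (hX _).2 j c hc⟩
  choose hb gb fb nb using fun i => P.run (.inr i) S g (G₁ (.inr i)) (μ₁ (.inr i)) (η₁ (.inr i))
    ∅ (.refl ℝ E3) n₀ ∅ (fun _ => 0) (fun _ => 0) (ι := Unit) (fun _ _ => 0) hS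
    (fun h => absurd h not_nonempty_empty) hΩ hΛ (H.aux₁ _).opn
    (H.aux₁ _).pos ((H.aux₁ _).le.trans (P.mm_le _)) (t1 _).1 (sΛ _) (e2 _).1 (H.aux₁ _).cer
    (e2 _).2 ((A.std i).L ▸ cond_refl) (fun _ h => h.elim) fun _ h => h.elim
  have geo : ∀ i, Geo4 S (A.Z i).toZone (P.r' i) (P.r' i * μ₁ i) (P.v i) (P.δ i * μ₁ i) g.toFun
      (Sum.elim ha hb i).toFun := by
    rintro (j | i)
    exacts [ga j, gb i]
  obtain ⟨h₁, L₁⟩ := layer4 S g (Sum.elim ha hb) (fun i => (A.Z i).supp)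
    (fun i => Ly.closed_supp _) (lf_comp z2 Sum.inl_injective fun _ => Subset.rfl)
    (fun i j h => z3 (.inl i) (.inl j) (Sum.inl_injective.ne h)) fun i => (geo i).off
  have on₁ : ∀ i, ∀ c ∈ hit S g.toFun (A.Z i).supp,
      EqOn h₁.toFun (Sum.elim ha hb i).toFun (S.Q.cell c) := fun i c hc =>
    L₁.eqOn fun j hj h => disjoint_left.1 (e1 j i hj) h hc
  have L : Lay4 P S μ₁ g.toFun h₁.toFun := ⟨L₁.off, L₁.iff, fun i => ⟨_, geo i, on₁ i⟩⟩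
  obtain ⟨P₃⟩ := a3 P γ
  have f0 := d2 P₃ H L
  obtain ⟨f1, f2, f3, f4, f5, f6⟩ := d3 P₃ H L fun m => (f0 m).1
  have s₂ : ∀ m, (P₃.Z m).supp ⊆ Λ := fun m => (f1 m).trans (A.sh.sub (by norm_num))
  obtain ⟨η₂, t2, hA⟩ := hA (fun m => hit S h₁.toFun (P₃.Z m).supp) fun m => hit_finite S h₁
    ((A.sh.cpt (by norm_num)).of_isClosed_subset (Ly.closed_supp _) (f1 m)) (s₂ m)
  choose hc oc dc fc using fun m => h0 S h₁ (P₃.Z m) (P.l m) (η₂ m) hS hΩ hΛ (P.l_pos m)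
    (P₃.T_eq m) (P₃.N_eq m) (t2 m) (s₂ m) (fun c hc x hx y hy => ((f0 m).1 c (hc.mono
      (inter_subset_inter_right _ ((f1 m).trans (A.sh.mono (by norm_num) (by norm_num)))))
      x hx y hy).trans (mul_le_mul_of_nonneg_right q.ω_o (P.l_pos m).le)) (f0 m).2
  obtain ⟨h₂, L₂⟩ := layer4 S h₁ hc (fun m => (P₃.Z m).supp) (fun m => Ly.closed_supp _)
    (lf_comp (A.sh.lf (46 / 100) (104 / 100)) (E := fun m => 2 * m)
      (fun _ _ h => by simpa using h) f1)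
    (fun i j h => disj_of S h₁ (s₂ i) (f2 i j h)) oc
  have near : ∀ j, ∀ φ ∈ Nr j, EqOn h₂.toFun (ha j).toFun (S.Q.cell φ) := fun j φ hφ u hu => by
    have u0 := cell_sub φ hu
    rw [L₂.off u u0 (f4 j u ⟨u0, (hnr j).2.1 φ hφ hu⟩)]
    exact L₁.on (.inl j) u u0 (Ly.core_sub _ (cor j φ hφ u hu))
  have near' : ∀ j, ∀ φ ∈ Nr j, EqOn ((A.Z (.inl j)).T ∘ h₂.toFun ∘ (ν j).symm)
      ((A.Z (.inl j)).T ∘ (ha j).toFun ∘ (ν j).symm) (ν j '' S.Q.cell φ) := by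
    rintro j φ hφ _ ⟨u, hu, rfl⟩
    show (A.Z (.inl j)).T (h₂.toFun ((ν j).symm (ν j u))) =
      (A.Z (.inl j)).T ((ha j).toFun ((ν j).symm (ν j u)))
    rw [(ν j).symm_apply_apply, near j φ hφ hu]
  refine ⟨h₂, fun u hu => f6 u hu _ ?_, fun u hu hD => ?_, ?_, fun j => ⟨fun φ hφ u hu => ?_, ?_⟩⟩
  · by_cases h : ∃ m, h₁.toFun u ∈ (P₃.Z m).supp
    · obtain ⟨m, hm⟩ := h
      exact Or.inr ⟨m, L₂.on m u hu hm ▸ dc m u hu⟩
    · exact Or.inl (L₂.off u hu (not_exists.1 h))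
  · have u1 := L₁.off u hu (e4 _ hD)
    rw [L₂.off u hu (by rw [u1]; exact f5 _ hD), u1]
  · have := hA g.toFun h₁.toFun h₂.toFun
      (fun j => k.Ca M₀ (Y j).θ (Y j).N (Y j).t (Y j).L)
      (fun i => hit S g.toFun (A.Z i).core) (fun m => hit S h₁.toFun (P₃.Z m).core)
      (fun j => {c ∈ Far3 S Nr | (S.Q.cell c ∩ (Y j).G).Nonempty})
      (fun i => hit_mono (Ly.core_sub _)) (fun m => hit_mono (Ly.core_sub _))
      (fun j c hc => ?_) e1 f2 fun c hc => ⟨L₁.eqOn_off, L₂.eqOn_off, ?_, fun m hm => ?_, ?_⟩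
    · exact this
    · obtain ⟨u, u1, u2⟩ := mem_hit.1 hc.2
      exact ⟨hc.1.1, u, u1, e3 j u (cell_sub c u1) u2⟩
    · rintro (j | i) hi
      · have := fa j c hc.1.1 (hc.1.2 j)
        obtain ⟨-, -, t1, t2, t3, -, t4⟩ := A.ty j
        rw [(hfar c hc.1).1, t1, t2, t3, t4] at this
        exact fb_congr this (on₁ _ c hi)
      · have := fb i c hc.1.1 (notMem_empty c)
        rw [(hfar c hc.1).1, (A.std i).N, (A.std i).t, (A.std i).θ, (A.std i).L] at this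
        exact fb_congr this (on₁ _ c hi)
    · have := fc m c hc.1.1
      rw [(hfar c hc.1).1] at this
      exact fb_congr this (L₂.eqOn fun j hj h => disjoint_left.1 (f2 j m hj) h hm)
    · refine (f3 c).imp_right (Or.imp_right fun h => ?_)
      have := hF S g.toFun c (by rw [hc.1.1]; norm_num) h
      rwa [(hfar c hc.1).1] at this
  · have := box j φ hφ u hu
    rwa [(A.ty j).2.2.1] at this
  · obtain ⟨⟨c, kk, n1⟩, n2⟩ := na j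
    obtain ⟨-, -, t1', t2', t3, t4, -⟩ := A.ty j
    refine ⟨⟨c, kk, ?_⟩, fun c' h1 h2 => ?_⟩
    · have := hG n1 (fun φ hφ => ((hnr j).2.2 φ hφ).cell) Subset.rfl (near' j) (P.r_e _) le_rfl
        (t1 _).2
      rwa [t1', t2', t3, t4] at this
    · have := n2 c' h1 h2
      rw [t1', t2', t3] at this
      rw [lipc_congr (near' j c' h1)]
      exact this.trans (add_le_add le_rfl (t1 _).2)

end P073.B4
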