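import Vale.Agent.P073Y.B.Defs2
import Vale.Agent.P073Y.Zn.Pl

/-!
# The two batches for exponents from three on: statements
-/

open Set Metric Topology Filter MeasureTheory
open scoped NNReal ENNReal

namespace P073.B4

open P073.Top P073.Zn P073.B

variable {Ω Λ : Set E3}

/-! ### one zone in ambient coordinates -/

/-- the bounds on one three-cell; `H` says that control is gained -/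
structure Fb (S : Src Ω) (g h : E3 → E3) (K : ℝ≥0) (η : ℝ≥0∞) (H : Prop) (c : S.Q.ι) :
    Prop where
  sum : S.A h c ≤ K * S.A g c + η
  keep : lipc h (S.Q.cell c) ≤ K * (lipc g (S.Q.cell c) + S.A g c) + η
  gain : H → lipc h (S.Q.cell c) ≤ K * S.A g c + η

/-- the constants of the first batch -/
structure Cs where
  /-- constant of the sharp faces -/
  c₀ : ℝ
  /-- admissible volume -/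
  v₀ : ℝ
  /-- constant of the near estimates -/
  Cz : ℝ → ℝ≥0
  /-- constant of the near cells -/
  CM : ℝ → ℝ≥0 → ℝ≥0
  /-- constant of the far cells -/
  Ca : ℝ≥0 → ℝ → ℕ → ℝ → ℝ≥0 → ℝ≥0
  c_ge : 1 ≤ c₀
  v_pos : 0 < v₀

/-- the near estimates -/
def NearB (p : ℝ) (k : Cs) (Z : ZD) (e : ℝ) {S : Src Ω} {ν : E3 ≃ᴬ[ℝ] E3} (n : Nrm S ν)
    (g h : E3 → E3) (Nr : Set S.Q.ι) (η : ℝ≥0∞) (𝓢 : Set S.Q.ι)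
    (ψ : S.Q.ι → (E2 →ᵃ[ℝ] E3)) (a : S.Q.ι → ℝ) {ι : Type} [Fintype ι]
    (m : ι → S.Q.ι → ℝ≥0∞) : Prop :=
  (∃ c kk, NearOut p k.c₀ Z.θ Z.ϑ e (k.Cz Z.θ) (k.CM Z.θ) n.src Z.N Z.t Z.B
    (Z.T ∘ g ∘ ν.symm) (Z.T ∘ h ∘ ν.symm) Nr η 𝓢 ψ a m c kk) ∧
  ∀ c' ∈ Nr, S.Q.dim c' = 3 → lipc (Z.T ∘ h ∘ ν.symm) (ν '' S.Q.cell c') ≤
    k.CM Z.θ (n.M c') * n.src.A (vst Z.N Z.t ∘ Z.T ∘ g ∘ ν.symm) c' + η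

/-- the geometric result of a zone of the first batch -/
structure Geo4 (S : Src Ω) (Z : Zone) (e o v d : ℝ) (g h : E3 → E3) : Prop where
  off : ∀ x ∈ Ω, g x ∉ Z.supp → h x = g x
  near : ∀ x ∈ Ω, ∀ z, Z.T (g x) ∈ lbox Z.N 0 z → Z.T (h x) ∈ cthickening e (lbox Z.N 0 z)
  osc : S.Osc h Z.supp o
  cer : ∃ G', IsOpen G' ∧ volume (Z.supp \ G') ≤ ENNReal.ofReal v ∧ Cer S h G' d

/-- the zone `Z` can be treated with these parameters -/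
def Run4 (p : ℝ) (k : Cs) (Z : ZD) (v δ r' r μ₀ : ℝ) : Prop :=
  ∀ {Ω Λ : Set E3} (S : Src Ω) (g : ConHomeo Ω Λ) (G : Set E3) (μ : ℝ) (η : ℝ≥0∞)
    (Nr : Set S.Q.ι) (ν : E3 ≃ᴬ[ℝ] E3) (n : Nrm S ν) (𝓢 : Set S.Q.ι)
    (ψ : S.Q.ι → (E2 →ᵃ[ℝ] E3)) (a : S.Q.ι → ℝ) {ι : Type} [Fintype ι]
    (m : ι → S.Q.ι → ℝ≥0∞), Fc S → (Nr.Nonempty → Fc n.src) → IsOpen Ω → IsOpen Λ → IsOpen G →
  0 < μ → μ ≤ μ₀ → 0 < η → Z.supp ⊆ Λ →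
  volume (Z.T '' (Z.supp \ G)) ≤ ENNReal.ofReal (k.v₀ * Z.t) → Cer S g.toFun G μ →
  S.Osc g.toFun Z.supp (r * μ) → Cond ν Z.L →
  (∀ φ ∈ 𝓢, Marked n.src (Z.T ∘ g.toFun ∘ ν.symm) Z.θ φ (ψ φ) (a φ)) →
  (∀ c ∈ Nr, c ∈ hit S g.toFun Z.core ∧ Disjoint (g.toFun '' S.Q.cell c) (thickening μ G)) →
  ∃ h : ConHomeo Ω Λ, Geo4 S Z.toZone r' (r' * μ) v (δ * μ) g.toFun h.toFun ∧
    (∀ c, S.Q.dim c = 3 → c ∉ Nr → Fb S g.toFun h.toFun (k.Ca (S.M c) Z.θ Z.N Z.t Z.L) η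
      (c ∈ hit S g.toFun Z.core) c) ∧
    NearB p k Z r' n g.toFun h.toFun Nr η 𝓢 ψ a m

/-- a zone of the first batch -/
def ZB4 (p : ℝ) (k : Cs) : Prop := ∀ (Z : ZD) (v : ℝ), 0 < v → ∃ δ : ℝ, 0 < δ ∧
  ∀ r' : ℝ, 0 < r' → ∃ r μ₀ : ℝ, 0 < r ∧ 0 < μ₀ ∧ Run4 p k Z v δ r' r μ₀

/-- the data of a hole in the box `z` of the lattice of scale `l` -/
def Hole (S : Src Ω) (g : E3 → E3) (l a v₀ r : ℝ) (z : Z3) : Prop :=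
  ∃ (c : E3) (G : Set E3) (μ : ℝ), dist c (l • cen z) ≤ l / 4 ∧ IsOpen G ∧ 0 < μ ∧ μ ≤ l ∧
    volume (closedBall c (a * l) \ G) ≤ ENNReal.ofReal (v₀ * (a * l) ^ 3) ∧
    Cer S g (G ∩ closedBall c (a * l)) μ ∧ S.Osc g (closedBall c (a * l)) (r * μ)

/-- zones of the second batch can be treated with these constants -/
def Run0 (K : ℝ≥0 → ℝ≥0) (a v₀ r o₀ : ℝ) : Prop :=
  ∀ {Ω Λ : Set E3} (S : Src Ω) (g : ConHomeo Ω Λ) (Z : Zone) (l : ℝ) (η : ℝ≥0∞), Fc S →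
  IsOpen Ω → IsOpen Λ → 0 < l → (∀ y, Z.T y = l⁻¹ • y) → Z.N = 1 → 0 < η → Z.supp ⊆ Λ →
  S.Osc g.toFun Z.supp (o₀ * l) → (∀ z ∈ nbr 1 Z.B, Hole S g.toFun l a v₀ r z) →
  ∃ h : ConHomeo Ω Λ, (∀ x ∈ Ω, g.toFun x ∉ Z.supp → h.toFun x = g.toFun x) ∧
    (∀ x ∈ Ω, dist (h.toFun x) (g.toFun x) ≤ 2 * l) ∧
    ∀ c, S.Q.dim c = 3 → Fb S g.toFun h.toFun (K (S.M c)) η (c ∈ hit S g.toFun Z.core) c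

/-- a zone of the second batch -/
def ZB0 : Prop := ∃ v₀ : ℝ, 0 < v₀ ∧ ∀ a : ℝ, 0 < a → a ≤ 1 / 16 →
  ∃ (K : ℝ≥0 → ℝ≥0) (r o₀ : ℝ), 0 < r ∧ 0 < o₀ ∧ Run0 K a v₀ r o₀

/-! ### geometric tools -/

/-- a small ball inside or outside the support -/
def Tri (a₁ : ℝ) : Prop := ∀ (Z : Zone) (y : E3) (l : ℝ), 0 < l →
  (∀ u u', dist u u' ≤ 10 * l → dist (Z.T u) (Z.T u') ≤ 1 / 4) →
  ∃ c, dist c y ≤ l / 4 ∧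
    (closedBall c (a₁ * l) ⊆ Z.supp ∨ Disjoint (closedBall c (a₁ * l)) Z.supp)

/-- such balls exist with a universal relative size -/
def TRI : Prop := ∃ a₁ : ℝ, 0 < a₁ ∧ a₁ ≤ 1 / 16 ∧ Tri a₁

/-- the constants of the second batch -/
structure C0 where
  /-- margin of the main cores -/
  a₀ : ℝ
  /-- radius of the holes -/
  a : ℝ
  /-- admissible volume -/
  v₀ : ℝ
  /-- ratio of oscillation and margin -/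
  r : ℝ
  /-- admissible oscillation -/
  o₀ : ℝ
  /-- the oscillation which is realised -/
  ω : ℝ
  a₀_le : a₀ ≤ 1 / 100
  a_pos : 0 < a
  a_le : a ≤ a₀
  tri : Tri (2 * a)
  v_pos : 0 < v₀
  r_pos : 0 < r
  ω_pos : 0 < ω
  ω_o : ω ≤ o₀
  ω_a : ω ≤ a / 2
  ω_r : ω ≤ r * a₀

/-! ### the stages -/

variable {J : Type} {k₀ : Cst} {B : Base J}

/-- the exceptional set round the types -/
def Ex (B : Base J) (s : ℝ) : Set E3 := ⋃ j, B.f '' (B.Ω ∩ thickening s (B.Y j).K)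

/-- the choices before the scale of the second batch -/
structure P1 (A : St1 k₀ B) (v₀ : ℝ) where
  /-- width of the near sets -/
  s : ℝ
  /-- bound for the scale of the second batch -/
  l₀ : ℝ
  /-- closeness to `f` -/
  o₁ : E3 → ℝ
  v_pos : 0 < v₀
  s_pos : 0 < s
  s_le : s ≤ A.s₁
  vol : ∀ j, volume ((A.Z (.inl j)).T '' (B.f '' (B.Ω ∩ thickening s (B.Y j).K))) ≤
    ENNReal.ofReal (v₀ * (A.Z (.inl j)).t / 2)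
  l_pos : 0 < l₀
  l_s : 100 * l₀ ≤ A.s₀
  lT : ∀ i, lev i ≤ 1 → ∀ u u', dist u u' ≤ 10 * l₀ →
    dist ((A.Z i).T u) ((A.Z i).T u') ≤ 1 / 4
  gauge : Gauge o₁ B.Ω
  close : ∀ x ∈ B.Ω, ∀ y, dist y (B.f x) ≤ o₁ x → dist y (B.f x) ≤ A.s₀ ∧
    (∀ n, (y ∈ shl B.Λ A.d₀ n (4 / 10) (12 / 10) ∨ B.f x ∈ shl B.Λ A.d₀ n (4 / 10) (12 / 10)) →
      dist y (B.f x) ≤ dk A.d₀ n / 1000) ∧
    ∀ j, x ∈ thickening s (B.Y j).K → ∃ z, nbr 1 {z} ⊆ (A.Z (.inl j)).B ∧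
      (A.Z (.inl j)).T y ∈ lbox (A.Z (.inl j)).N 0 z

/-- existence of these choices -/
def PA1 : Prop := ∀ {J : Type} {k₀ : Cst} {B : Base J} (A : St1 k₀ B) (v₀ : ℝ), 0 < v₀ →
  Nonempty (P1 A v₀)

variable {A : St1 k₀ B} {v₀ : ℝ}

/-- the zone `i` of the first batch and the zone `m` of the second batch are neighbours -/
def Adj (i : J ⊕ ℕ) (m : ℕ) : Prop := 2 * m ≤ lev i + 1 ∧ lev i ≤ 2 * m + 1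

/-- the parameters of both batches; `R` is the property of the parameters of the zones -/
structure P2 (A₁ : P1 A v₀) (q : C0) (l₂ e : ℝ) (R : J ⊕ ℕ → ℝ → ℝ → ℝ → ℝ → ℝ → Prop) where
  /-- scales of the second batch -/
  l : ℕ → ℝ
  /-- volume after the first batch -/
  v : J ⊕ ℕ → ℝ
  /-- ratio of the margins -/
  δ : J ⊕ ℕ → ℝ
  /-- ratio of the new oscillation -/
  r' : J ⊕ ℕ → ℝ
  /-- admissible ratio of the oscillation -/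
  r : J ⊕ ℕ → ℝ
  /-- admissible margin -/
  μ₀ : J ⊕ ℕ → ℝ
  /-- required ratio of the oscillation -/
  rr : J ⊕ ℕ → ℝ
  /-- required margin -/
  mm : J ⊕ ℕ → ℝ
  /-- required volume -/
  vv : J ⊕ ℕ → ℝ
  /-- the gauge for the oscillation -/
  o : E3 → ℝ
  l_pos : ∀ m, 0 < l m
  l_zero : l 0 = l₂
  l_le : l₂ ≤ A₁.l₀
  l_d : ∀ m, l m ≤ dk A.d₀ (2 * m) / 1000
  l_ε : ∀ m, l m ≤ B.ε / 100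
  lT : ∀ i m, Adj i m → ∀ u u', dist u u' ≤ 10 * l m →
    dist ((A.Z i).T u) ((A.Z i).T u') ≤ 1 / 4
  run : ∀ i, R i (v i) (δ i) (r' i) (r i) (μ₀ i)
  pos : ∀ i, 0 < δ i ∧ 0 < r' i ∧ 0 < rr i ∧ 0 < mm i ∧ 0 < vv i
  rr_le : ∀ i, rr i ≤ r i
  mm_le : ∀ i, mm i ≤ μ₀ i
  v_le : ∀ i m, Adj i m → v i ≤ q.v₀ * (q.a * l m) ^ 3
  r_e : ∀ i, r' i ≤ e
  r_le : ∀ i, r' i ≤ 1 / 8
  r_δ : ∀ i, r' i ≤ q.r * δ i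
  mm_δ : ∀ i m, Adj i m → δ i * mm i ≤ q.a * l m
  mm_r : ∀ i m, Adj i m → r' i * mm i ≤ q.ω * l m
  rrT : ∀ i u u', dist u u' ≤ rr i * mm i → dist ((A.Z i).T u) ((A.Z i).T u') ≤ 1
  vol : ∀ i (X : Set E3), volume X ≤ ENNReal.ofReal (vv i) →
    volume ((A.Z i).T '' X) ≤ ENNReal.ofReal (v₀ * (A.Z i).t / 2)
  gauge : Gauge o B.Ω
  o_le : ∀ m, ∀ x ∈ B.Ω, B.f x ∈ shl B.Λ A.d₀ (2 * m) (4 / 10) (12 / 10) →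
    2 * o x ≤ q.ω * l m

/-- existence of the parameters -/
def PA2 : Prop := ∀ {J : Type} {k₀ : Cst} {B : Base J} {A : St1 k₀ B} {v₀ : ℝ} (A₁ : P1 A v₀)
  (q : C0) (l₂ e : ℝ) (R : J ⊕ ℕ → ℝ → ℝ → ℝ → ℝ → ℝ → Prop), 0 < v₀ → 0 < l₂ → l₂ ≤ A₁.l₀ →
  0 < e → (∀ i v, 0 < v → ∃ δ : ℝ, 0 < δ ∧ ∀ r' : ℝ, 0 < r' →
    ∃ r μ₀ : ℝ, 0 < r ∧ 0 < μ₀ ∧ R i v δ r' r μ₀) → Nonempty (P2 A₁ q l₂ e R)

variable {A₁ : P1 A v₀} {q : C0} {l₂ e : ℝ} {R : J ⊕ ℕ → ℝ → ℝ → ℝ → ℝ → ℝ → Prop}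

/-- the part of an even shell which is away from the first batch -/
def P2.Zo (P : P2 A₁ q l₂ e R) (m : ℕ) : Set E3 :=
  shl B.Λ A.d₀ (2 * m) (46 / 100) (104 / 100) \ thickening (q.a * P.l m) (⋃ i, (A.Z i).supp)

/-- all regions which carry auxiliary cores -/
def P2.Zs (P : P2 A₁ q l₂ e R) : (J ⊕ ℕ) ⊕ ℕ → Set E3 := Sum.elim (fun i => (A.Z i).supp) P.Zo

/-- these regions are compact, disjoint and locally finite -/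
def ZS : Prop := ∀ {J : Type} {k₀ : Cst} {B : Base J} {A : St1 k₀ B} {v₀ : ℝ} {A₁ : P1 A v₀}
  {q : C0} {l₂ e : ℝ} {R : J ⊕ ℕ → ℝ → ℝ → ℝ → ℝ → ℝ → Prop} (P : P2 A₁ q l₂ e R),
  (∀ i, IsCompact (P.Zs i) ∧ P.Zs i ⊆ B.Λ) ∧ LFIn P.Zs B.Λ ∧
    ∀ i i', i ≠ i' → Disjoint (P.Zs i) (P.Zs i')

/-- the sets covered by the second batch -/
def P2.cov (_P : P2 A₁ q l₂ e R) (γ : Set E3) (m : ℕ) : Set E3 :=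
  shl B.Λ A.d₀ (2 * m) (47 / 100) (103 / 100) \ ((⋃ j, (A.Z (.inl j)).In) ∪ γ)

/-- the zones of the second batch -/
structure P3 (P : P2 A₁ q l₂ e R) (γ : Set E3) where
  /-- the zones -/
  Z : ℕ → Zone
  T_eq : ∀ m y, (Z m).T y = (P.l m)⁻¹ • y
  N_eq : ∀ m, (Z m).N = 1
  core : ∀ m, P.cov γ m ⊆ (Z m).core
  supp : ∀ m, ∀ y ∈ (Z m).supp, ∃ y' ∈ P.cov γ m, dist y y' ≤ 2 * P.l m

/-- existence of these zones -/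
def PA3 : Prop := ∀ {J : Type} {k₀ : Cst} {B : Base J} {A : St1 k₀ B} {v₀ : ℝ} {A₁ : P1 A v₀}
  {q : C0} {l₂ e : ℝ} {R : J ⊕ ℕ → ℝ → ℝ → ℝ → ℝ → ℝ → Prop} (P : P2 A₁ q l₂ e R) (γ : Set E3),
  Nonempty (P3 P γ)

/-- the hypotheses on the complex and on `g` -/
structure Hy (P : P2 A₁ q l₂ e R) (S : Src B.Ω) (g : E3 → E3) (γ Γ D : Set E3)
    (G₁ : J ⊕ ℕ → Set E3) (μ₁ : J ⊕ ℕ → ℝ) (G₂ : ℕ → Set E3) (μ₂ : ℕ → ℝ) : Prop where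
  maps : MapsTo g B.Ω B.Λ
  main : Main S g q.a₀ l₂ γ Γ D
  sub : Γ ⊆ B.f '' B.Ω₀
  disj : ∀ j, Disjoint Γ (B.f '' (B.Y j).G)
  aux₁ : ∀ i, Aux S g (A.Z i).supp Γ (Ex B A₁.s) (G₁ i) (P.vv i) (P.rr i) (P.mm i) (μ₁ i)
  aux₂ : ∀ m, Aux S g (P.Zo m) Γ (Ex B A₁.s) (G₂ m) (q.v₀ * (q.a * P.l m) ^ 3) q.r
    (q.a * P.l m) (μ₂ m)
  osc : ∀ c, (∀ x ∈ S.Q.cell c, ∀ y ∈ S.Q.cell c, dist (g x) (g y) ≤ P.o y) ∨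
    (c ∈ hit S g Γ ∧ OscC S g c (q.ω * l₂))
  cl : ∀ x ∈ B.Ω, dist (g x) (B.f x) ≤ A₁.o₁ x

/-- the result of the first batch -/
structure Lay4 (P : P2 A₁ q l₂ e R) (S : Src B.Ω) (μ₁ : J ⊕ ℕ → ℝ) (g h : E3 → E3) : Prop where
  off : ∀ x ∈ B.Ω, (∀ i, g x ∉ (A.Z i).supp) → h x = g x
  mem : ∀ i, ∀ x ∈ B.Ω, h x ∈ (A.Z i).supp ↔ g x ∈ (A.Z i).supp
  geo : ∀ i, ∃ h', Geo4 S (A.Z i).toZone (P.r' i) (P.r' i * μ₁ i) (P.v i) (P.δ i * μ₁ i) g h' ∧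
    ∀ c ∈ hit S g (A.Z i).supp, EqOn h h' (S.Q.cell c)

/-- the first batch can run -/
def DY1 : Prop := ∀ {J : Type} {k₀ : Cst} {B : Base J} {A : St1 k₀ B} {v₀ : ℝ} {A₁ : P1 A v₀}
  {q : C0} {l₂ e : ℝ} {R : J ⊕ ℕ → ℝ → ℝ → ℝ → ℝ → ℝ → Prop} {P : P2 A₁ q l₂ e R}
  {S : Src B.Ω} {g : E3 → E3} {γ Γ D : Set E3} {G₁ : J ⊕ ℕ → Set E3} {μ₁ : J ⊕ ℕ → ℝ}
  {G₂ : ℕ → Set E3} {μ₂ : ℕ → ℝ}, Hy P S g γ Γ D G₁ μ₁ G₂ μ₂ →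
  (∀ i i', i ≠ i' → Disjoint (hit S g (A.Z i).supp) (hit S g (A.Z i').supp)) ∧
  (∀ i, volume ((A.Z i).T '' ((A.Z i).supp \ G₁ i)) ≤ ENNReal.ofReal (v₀ * (A.Z i).t) ∧
    S.Osc g (A.Z i).supp (P.r i * μ₁ i)) ∧
  (∀ j, ∀ u ∈ B.Ω, g u ∈ (A.Z (.inl j)).supp → u ∈ (B.Y j).G) ∧
  ∀ y ∈ D, ∀ i, y ∉ (A.Z i).supp

/-- the second batch can run -/
def DY2 : Prop := ∀ {J : Type} {k₀ : Cst} {B : Base J} {A : St1 k₀ B} {v₀ : ℝ} {A₁ : P1 A v₀}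
  {q : C0} {l₂ e : ℝ} {R : J ⊕ ℕ → ℝ → ℝ → ℝ → ℝ → ℝ → Prop} {P : P2 A₁ q l₂ e R}
  {S : Src B.Ω} {g h : E3 → E3} {γ Γ D : Set E3} {G₁ : J ⊕ ℕ → Set E3} {μ₁ : J ⊕ ℕ → ℝ}
  {G₂ : ℕ → Set E3} {μ₂ : ℕ → ℝ} (P₃ : P3 P γ), Hy P S g γ Γ D G₁ μ₁ G₂ μ₂ →
  Lay4 P S μ₁ g h → ∀ m, S.Osc h (shl B.Λ A.d₀ (2 * m) (45 / 100) (105 / 100)) (q.ω * P.l m) ∧
    ∀ z ∈ nbr 1 (P₃.Z m).B, Hole S h (P.l m) q.a q.v₀ q.r z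

/-- supports, covering, protected sets and the final distance -/
def DY3 : Prop := ∀ {J : Type} {k₀ : Cst} {B : Base J} {A : St1 k₀ B} {v₀ : ℝ} {A₁ : P1 A v₀}
  {q : C0} {l₂ e : ℝ} {R : J ⊕ ℕ → ℝ → ℝ → ℝ → ℝ → ℝ → Prop} {P : P2 A₁ q l₂ e R}
  {S : Src B.Ω} {g h : E3 → E3} {γ Γ D : Set E3} {G₁ : J ⊕ ℕ → Set E3} {μ₁ : J ⊕ ℕ → ℝ}
  {G₂ : ℕ → Set E3} {μ₂ : ℕ → ℝ} (P₃ : P3 P γ), Hy P S g γ Γ D G₁ μ₁ G₂ μ₂ →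
  Lay4 P S μ₁ g h →
  (∀ m, S.Osc h (shl B.Λ A.d₀ (2 * m) (45 / 100) (105 / 100)) (q.ω * P.l m)) →
  (∀ m, (P₃.Z m).supp ⊆ shl B.Λ A.d₀ (2 * m) (46 / 100) (104 / 100)) ∧
  (∀ m m', m ≠ m' → Disjoint (hit S h (P₃.Z m).supp) (hit S h (P₃.Z m').supp)) ∧
  (∀ c, (∃ i, c ∈ hit S g (A.Z i).core) ∨ (∃ m, c ∈ hit S h (P₃.Z m).core) ∨
    ∃ a : E3 →ᵃ[ℝ] E3, EqOn g a (S.Q.cell c)) ∧
  (∀ j, ∀ u ∈ B.Ω ∩ thickening A₁.s (B.Y j).K, ∀ m, h u ∉ (P₃.Z m).supp) ∧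
  (∀ y ∈ D, ∀ m, y ∉ (P₃.Z m).supp) ∧
  ∀ u ∈ B.Ω, ∀ y, (y = h u ∨ ∃ m, dist y (h u) ≤ 2 * P.l m) → dist y (B.f u) ≤ B.ε

/-- the accounting on the far cells; `H i` are the cells which meet the zones -/
def ACT (p : ℝ) : Prop := ∀ (K₀ K₁ D₀ : ℝ≥0), ∃ Cu Ct : ℝ≥0,
  ∀ {Ω : Set E3} (S : Src Ω) {J : Type} [Fintype J] (El : Set S.Q.ι) (w : S.Q.ι → ℝ≥0∞)
    (H₁ : J ⊕ ℕ → Set S.Q.ι) (η : ℝ≥0∞), 0 < η → (∀ c ∈ El, w c ≠ ⊤) → (∀ i, (H₁ i).Finite) →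
  ∃ η₁ : J ⊕ ℕ → ℝ≥0∞, (∀ i, 0 < η₁ i ∧ η₁ i ≤ η) ∧
  ∀ H₂ : ℕ → Set S.Q.ι, (∀ m, (H₂ m).Finite) → ∃ η₂ : ℕ → ℝ≥0∞, (∀ m, 0 < η₂ m) ∧
  ∀ (g h h' : E3 → E3) (K : J → ℝ≥0) (C₁ : J ⊕ ℕ → Set S.Q.ι) (C₂ : ℕ → Set S.Q.ι)
    (X : J → Set S.Q.ι), (∀ i, C₁ i ⊆ H₁ i) → (∀ m, C₂ m ⊆ H₂ m) →
    (∀ j, El ∩ H₁ (.inl j) ⊆ X j) →
    (∀ i i', i ≠ i' → Disjoint (H₁ i) (H₁ i')) → (∀ m m', m ≠ m' → Disjoint (H₂ m) (H₂ m')) →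
    (∀ c ∈ El, ((∀ i, c ∉ H₁ i) → EqOn h g (S.Q.cell c)) ∧
      ((∀ m, c ∉ H₂ m) → EqOn h' h (S.Q.cell c)) ∧
      (∀ i, c ∈ H₁ i → Fb S g h (Sum.elim K (fun _ => K₁) i) (η₁ i) (c ∈ C₁ i) c) ∧
      (∀ m, c ∈ H₂ m → Fb S h h' K₀ (η₂ m) (c ∈ C₂ m) c) ∧
      ((∃ i, c ∈ C₁ i) ∨ (∃ m, c ∈ C₂ m) ∨ lipc g (S.Q.cell c) ≤ D₀ * S.A g c)) →
    tot El (fun c => w c * lipc h' (S.Q.cell c) ^ p) ≤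
      Cu * tot El (fun c => w c * S.A g c ^ p) +
      ∑ j, (Ct * (K j + 1) ^ p : ℝ≥0) * tot (X j) (fun c => w c * S.A g c ^ p) + η

end P073.B4
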