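import Vale.Agent.P073Y.B4.Sk
import Vale.Agent.P073Y.B.Ct2
import Vale.Agent.P073Y.B.Cer
import Vale.Agent.P073Y.Zn.Za
import Vale.Agent.P073Y.Zn.Ncong
import Vale.Agent.P073Y.St.Api

/-!
# Transport of the zone estimates between normalised and ambient coordinates
-/

open Set Metric Topology Filter MeasureTheory
open scoped NNReal ENNReal

namespace P073.B4

open P073.Top P073.Zn P073.B P073.Zn.Za

variable {Ω Λ : Set E3} {S : Src Ω} {ν : E3 ≃ᴬ[ℝ] E3}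

/-- the given charts on `A`, the transported charts elsewhere -/
theorem nrm_fc (n : Nrm S ν) (A : Set S.Q.ι) {a b L : ℝ≥0} (ha : LipschitzWith a ν)
    (hb : LipschitzWith b ν.symm) (hL : a * b ≤ L) (hF : Fc S)
    (hn : A.Nonempty → Fc n.src) :
    ∃ n' : Nrm S ν, Fc n'.src ∧ (∀ c ∈ A, n'.r c = n.r c ∧ n'.M c = n.M c) ∧
      ∀ c, c ∉ A → n'.r c = a * S.r c ∧ n'.M c = S.M c * L := by
  obtain ⟨n', e1, e2⟩ := nrm_ok S ν A n.r n.M ha hb hL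
    fun c _ => ⟨n.r_pos c, n.M_ge c, n.chart c⟩
  refine ⟨n', fun c l hl h2 => ?_, e1, e2⟩
  show Bd.Chart _ _ _ (n'.M c / n'.r c) (n'.M c * n'.r c)
  by_cases hc : c ∈ A
  · rw [(e1 c hc).1, (e1 c hc).2]
    exact hn ⟨c, hc⟩ c l hl h2
  · rw [(e2 c hc).1, (e2 c hc).2]
    have h1 := one_le_cond ha hb
    have h3 : 0 < a := pos_iff_ne_zero.2 fun h => by simp [h] at h1
    have hr := S.r_pos c
    refine M2.chart_mono (M2.chart_push ν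
      (hF c l ((image_subset_image_iff ν.injective).1 hl) h2) ha hb) ?_ ?_
    · rw [le_div_iff₀ (mul_pos h3 hr)]
      calc S.M c / S.r c * b * (a * S.r c) = S.M c * (a * b) := by field_simp
        _ ≤ _ := by gcongr
    · calc a * (S.M c * S.r c) = S.M c * 1 * (a * S.r c) := by ring
        _ ≤ _ := by gcongr; exact h1.trans hL

theorem maps_src (n : Nrm S ν) (e : S.Q.ι) : MapsTo ν (S.Q.cell e) (n.src.Q.cell e) :=
  mapsTo_image _ _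

theorem maps_src' (n : Nrm S ν) (e : S.Q.ι) : MapsTo ν.symm (n.src.Q.cell e) (S.Q.cell e) := by
  rintro _ ⟨x, hx, rfl⟩
  exact (ν.symm_apply_apply x).symm ▸ hx

theorem A_src (n : Nrm S ν) {P g : E3 → E3} {a b : ℝ≥0} (ha : LipschitzWith a P)
    (hb : LipschitzWith b ν.symm) (c : S.Q.ι) :
    n.src.A (P ∘ g ∘ ν.symm) c ≤ (a * b : ℝ≥0) * S.A g c := by
  rw [A_eq, ← tot_mul]
  exact (A_eq (S := n.src) _ c).trans_le
    (tot_mono (wr_src n c).le fun e _ => lipc_conj ha hb (maps_src' n e))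

theorem A_src' (n : Nrm S ν) {R h : E3 → E3} {a b : ℝ≥0} (hb : LipschitzWith b R)
    (ha : LipschitzWith a ν) (c : S.Q.ι) :
    S.A (R ∘ h ∘ ν) c ≤ (b * a : ℝ≥0) * n.src.A h c := by
  refine le_trans ?_ (mul_le_mul_right (A_eq (S := n.src) h c).ge _)
  rw [A_eq, ← tot_mul]
  exact tot_mono (wr_src n c).ge fun e _ => lipc_conj hb ha (maps_src n e)

theorem Fb.mono {K K' : ℝ≥0} {g h : E3 → E3} {c : S.Q.ι} {G G' : Prop} {η η' : ℝ≥0∞}
    (H : Fb S g h K η G c) (hK : K ≤ K') (hG : G' → G) (hη : η ≤ η') : Fb S g h K' η' G' c :=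
  ⟨H.sum.trans (by gcongr), H.keep.trans (by gcongr), fun k => (H.gain (hG k)).trans (by gcongr)⟩

theorem Fb.congr {K : ℝ≥0} {g h g' h' : E3 → E3} {c : S.Q.ι} {G : Prop} {η : ℝ≥0∞}
    (H : Fb S g h K η G c) (e1 : EqOn g' g (S.Q.cell c)) (e2 : EqOn h' h (S.Q.cell c)) :
    Fb S g' h' K η G c := by
  refine ⟨?_, ?_, fun k => ?_⟩
  · rw [A_congr e1, A_congr e2]
    exact H.sum
  · rw [A_congr e1, lipc_congr e1, lipc_congr e2]
    exact H.keep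
  · rw [A_congr e1, lipc_congr e2]
    exact H.gain k

theorem fb_of {C : ℝ≥0} {CM : ℝ≥0 → ℝ≥0} {g h : E3 → E3} {X H : Set S.Q.ι} {η : ℝ≥0∞}
    (k : Ct2 C CM S g h X H η) {c : S.Q.ι} (hc : S.Q.dim c = 3) :
    Fb S g h (CM (S.M c)) η (c ∈ H) c :=
  ⟨k.sum c hc, k.keep c (Or.inl hc), fun m => k.gain c m (Or.inl hc)⟩

/-- a solid cell in ambient coordinates -/
theorem Fb.amb (n : Nrm S ν) {P R g h : E3 → E3} {a b a' b' U K : ℝ≥0}
    (ha : LipschitzWith a ν) (hb : LipschitzWith b ν.symm) (ha' : LipschitzWith a' P)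
    (hb' : LipschitzWith b' R) (hU : b' * a * (a' * b) ≤ U) {c : S.Q.ι} {G : Prop} {η : ℝ≥0∞}
    (H : Fb n.src (P ∘ g ∘ ν.symm) h K η G c) :
    Fb S g (R ∘ h ∘ ν) (U * K) ((b' * a : ℝ≥0) * η) G c := by
  have k : ∀ {u v x y : ℝ≥0∞}, u ≤ (b' * a : ℝ≥0) * v → v ≤ K * x + η →
      x ≤ (a' * b : ℝ≥0) * y → u ≤ (U * K : ℝ≥0) * y + (b' * a : ℝ≥0) * η := by
    intro u v x y h1 h2 h3
    calc u ≤ (b' * a : ℝ≥0) * (K * ((a' * b : ℝ≥0) * y) + η) :=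
          h1.trans (mul_le_mul_right (h2.trans (by gcongr)) _)
      _ = (b' * a * (a' * b) * K : ℝ≥0) * y + (b' * a : ℝ≥0) * η := by push_cast; ring
      _ ≤ _ := by gcongr
  have l1 := lipc_conj (f := h) hb' ha (maps_src n c)
  refine ⟨k (A_src' n hb' ha c) H.sum (A_src n ha' hb c), k l1 H.keep ?_,
    fun m => k l1 (H.gain m) (A_src n ha' hb c)⟩
  rw [mul_add]
  exact add_le_add (lipc_conj ha' hb (maps_src' n c)) (A_src n ha' hb c)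

/-- a solid cell, a change of the target only -/
theorem Fb.amb₀ {P R g h : E3 → E3} {a' b' U K : ℝ≥0} (ha' : LipschitzWith a' P)
    (hb' : LipschitzWith b' R) (hU : a' * b' ≤ U) {c : S.Q.ι} {G : Prop} {η : ℝ≥0∞}
    (H : Fb S (P ∘ g) h K η G c) : Fb S g (R ∘ h) (U * K) (b' * η) G c := by
  have k : ∀ {u v x y : ℝ≥0∞}, u ≤ b' * v → v ≤ K * x + η →
      x ≤ a' * y → u ≤ (U * K : ℝ≥0) * y + b' * η := by
    intro u v x y h1 h2 h3
    calc u ≤ b' * (K * (a' * y) + η) := h1.trans (mul_le_mul_right (h2.trans (by gcongr)) _)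
      _ = (a' * b' * K : ℝ≥0) * y + b' * η := by push_cast; ring
      _ ≤ _ := by gcongr
  have l2 : ∀ {Φ u : E3 → E3} {D : ℝ≥0}, LipschitzWith D Φ →
      lipc (Φ ∘ u) (S.Q.cell c) ≤ D * lipc u (S.Q.cell c) ∧ S.A (Φ ∘ u) c ≤ D * S.A u c :=
    fun hD => ⟨lipc_le_mul fun _ _ _ _ => hD _ _, (B.A_le (t := 0) fun w _ _ =>
      le_add_right (lipc_le_mul fun _ _ _ _ => hD _ _)).trans_eq (by rw [mul_zero, add_zero])⟩
  refine ⟨k (l2 hb').2 H.sum (l2 ha').2, k (l2 hb').1 H.keep ?_,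
    fun m => k (l2 hb').1 (H.gain m) (l2 ha').2⟩
  rw [mul_add]
  exact add_le_add (l2 ha').1 (l2 ha').2

/-! ### the near estimates -/

/-- the constant of the near estimates -/
noncomputable def cz (p : ℝ) (C : ℝ≥0) : ℝ≥0 := C ^ p * C + C

/-- the constant of the near faces and solids -/
noncomputable def cm (p : ℝ) (CM : ℝ≥0 → ℝ≥0) (M : ℝ≥0) : ℝ≥0 :=
  2 ^ (p - 1) * CM M ^ p * (4 * M ^ 2) + CM M

theorem near_of {p : ℝ} (h1 : 1 ≤ p) (S : Src Ω) {T : Set S.Q.ι} (hT : T.Finite) {η : ℝ≥0∞}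
    (hη : 0 < η) : ∃ η₁, 0 < η₁ ∧ η₁ ≤ η ∧ ∀ {c₀ θ ϑ e : ℝ} {C : ℝ≥0} {CM : ℝ≥0 → ℝ≥0} {N : ℕ}
      {t : ℝ} {B : Set Z3} {g h : E3 → E3} {X Nr : Set S.Q.ι} {η' : ℝ≥0∞} {𝓢 : Set S.Q.ι}
      {ψ : S.Q.ι → (E2 →ᵃ[ℝ] E3)} {a : S.Q.ι → ℝ} {ι : Type} [Fintype ι]
      {m : ι → S.Q.ι → ℝ≥0∞} {c : Z3 → E3}, ZO4 p c₀ θ ϑ e C CM S N t B g h X η' 𝓢 ψ a m c →
      η' ≤ η₁ → 1 ≤ C → Up S X → Nr ⊆ T → Nr ⊆ hit S g (ubox N 0 B) → (∀ φ ∈ Nr, φ ∉ X) →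
      NearOut p c₀ θ ϑ e (cz p C) (cm p CM) S N t B g h Nr η 𝓢 ψ a m c fun _ => C := by
  have hp : 0 < p := one_pos.trans_le h1
  have hq : 0 ≤ p - 1 := by linarith
  have e1 := (eventually_all_finite hT).2 fun φ _ =>
    ev_small (a := 2 ^ (p - 1) * (4 * ((S.M φ * S.r φ : ℝ≥0) : ℝ≥0∞) ^ 2)) (by finiteness) hη
  obtain ⟨η₁, ⟨⟨t1, t2⟩, t3⟩, t0⟩ := (((e1.and (ev_small ENNReal.one_ne_top hη)).and
    (ev_small ENNReal.one_ne_top one_pos)).and self_mem_nhdsWithin).exists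
  rw [one_mul] at t2 t3
  refine ⟨η₁, t0, t2, ?_⟩
  intro c₀ θ ϑ e C CM N t B g h X Nr η' 𝓢 ψ a ι _ m c H hη' hC hX hN hB hD
  have hη'' := hη'.trans t2
  have hC' : (1 : ℝ≥0∞) ≤ C := by exact_mod_cast hC
  have deep : ∀ φ ∈ Nr, S.Q.dim φ = 2 →
      S.E p h φ ≤ (C : ℝ≥0∞) ^ p * (cm p CM (S.M φ) * S.W p (vst N t ∘ g) φ) + η := by
    intro φ hφ h2
    have k1 := H.ctl.gain φ (hB hφ) (Or.inr ⟨h2, hD φ hφ⟩)
    have k2 := S.chart φ h2.ge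
    rw [h2] at k2
    have k3 := (ENNReal.rpow_le_rpow k1 hp.le).trans
      (ENNReal.rpow_add_le_mul_rpow_add_rpow _ _ h1)
    have k4 : η' ^ p ≤ η₁ := (ENNReal.rpow_le_self_of_le_one (hη'.trans t3) h1).trans hη'
    rw [ENNReal.mul_rpow_of_nonneg _ _ hp.le] at k3
    calc _ ≤ 2 ^ (p - 1) * ((CM (S.M φ) : ℝ≥0∞) ^ p * S.A (vst N t ∘ g) φ ^ p + η₁) *
          (4 * ((S.M φ * S.r φ : ℝ≥0) : ℝ≥0∞) ^ 2) :=
          (St.api.en h hp (S.Q.isCompact_cell φ)).trans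
            (mul_le_mul' (k3.trans (by gcongr)) (St.api.area k2).1)
      _ = 1 * ((2 ^ (p - 1) * CM (S.M φ) ^ p * (4 * S.M φ ^ 2) : ℝ≥0) * S.W p (vst N t ∘ g) φ) +
          2 ^ (p - 1) * (4 * ((S.M φ * S.r φ : ℝ≥0) : ℝ≥0∞) ^ 2) * η₁ := by
          simp only [Src.W, ENNReal.coe_mul, ENNReal.coe_rpow_of_nonneg _ hp.le,
            ENNReal.coe_rpow_of_nonneg _ hq, ENNReal.coe_pow, ENNReal.coe_ofNat]
          ring
      _ ≤ _ := by
          refine add_le_add (mul_le_mul' (ENNReal.one_le_rpow hC' hp) ?_) (t1 φ (hN hφ))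
          gcongr
          exact le_self_add
  refine ⟨H.cen, fun φ hφ w k1 k2 => (H.ctl.wire w k1 fun k3 => hD φ hφ (hX w k3 φ k2)).trans
    (by gcongr), fun φ hφ h2 => (deep φ hφ h2).trans (by gcongr; exact le_add_self),
    fun φ hφ h2 _ => deep φ hφ h2, fun _ => hC', fun _ _ => by exact_mod_cast le_add_self,
    fun i => ?_, fun z hz φ _ x hx => H.lat z hz x (cell_sub φ hx), fun z hz w _ x y k1 k2 k3 => ?_,
    fun z hz φ hφ k1 k2 => ((H.sharp z hz).2 φ hφ.2 k1 k2).trans (by gcongr)⟩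
  · rw [tot_mul']
    calc _ ≤ (Fintype.card ι + 1) * C * ENNReal.ofReal t *
          tot (hit S g (ubox N 0 (nbr 1 B))) (m i) * (C : ℝ≥0∞) ^ p := mul_le_mul_left (H.sum i) _
      _ = (Fintype.card ι + 1) * (C ^ p * C : ℝ≥0) * ENNReal.ofReal t *
          tot (hit S g (ubox N 0 (nbr 1 B))) (m i) := by
          rw [ENNReal.coe_mul, ENNReal.coe_rpow_of_nonneg _ hp.le]
          ring
      _ ≤ _ := by
          unfold ubox
          gcongr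
          exact le_self_add
  · obtain ⟨k4, k5⟩ := (H.sharp z hz).1 w x y k1 k2 k3
    exact ⟨fun u hu v hv => (k4 u hu v hv).trans (by gcongr), le_trans k5 (by gcongr)⟩

/-- only the constants on the near cells matter -/
theorem near_src {n n' : Nrm S ν} {p c₀ θ ϑ e : ℝ} {C : ℝ≥0} {CM : ℝ≥0 → ℝ≥0} {N : ℕ} {t : ℝ}
    {B : Set Z3} {g h : E3 → E3} {Nr 𝓢 : Set S.Q.ι} {η : ℝ≥0∞} {ψ : S.Q.ι → (E2 →ᵃ[ℝ] E3)}
    {a : S.Q.ι → ℝ} {ι : Type} [Fintype ι] {m : ι → S.Q.ι → ℝ≥0∞} {c : Z3 → E3}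
    {k : S.Q.ι → ℝ≥0∞} (H : NearOut p c₀ θ ϑ e C CM n'.src N t B g h Nr η 𝓢 ψ a m c k)
    (e1 : ∀ c ∈ Nr, n'.r c = n.r c ∧ n'.M c = n.M c) :
    NearOut p c₀ θ ϑ e C CM n.src N t B g h Nr η 𝓢 ψ a m c k := by
  refine ⟨H.cen, H.wire, fun φ hφ h2 => ?_, fun φ hφ h2 h3 => ?_, H.one_le, H.k_le, H.sum,
    H.lat, H.shE, H.shF⟩
  · have := H.face φ hφ h2
    rw [W_src (e1 φ hφ).1, show n'.src.M φ = n.src.M φ from (e1 φ hφ).2] at this
    exact this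
  · have := H.deep φ hφ h2 h3
    rw [W_src (e1 φ hφ).1, show n'.src.M φ = n.src.M φ from (e1 φ hφ).2] at this
    exact this

/-- the volume of a Lipschitz image -/
theorem vol_lip {Φ : E3 → E3} {K : ℝ≥0} (h : LipschitzWith K Φ) (X : Set E3) :
    volume (Φ '' X) ≤ (K : ℝ≥0∞) ^ 3 * volume X := by
  have h1 := hausdorffMeasure_pi_real (ι := Fin 3)
  have h2 := h.hausdorffMeasure_image_le (d := (Fintype.card (Fin 3) : ℝ)) (Nat.cast_nonneg _) X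
  rw [h1, ENNReal.rpow_natCast, Fintype.card_fin] at h2
  exact h2

theorem isCompact_supp (Z : Zone) : IsCompact Z.supp :=
  Z.T.toHomeomorph.isCompact_preimage.2
    ((nbr_finite Z.fin 1).isCompact_biUnion fun z _ => isCompact_lbox _ _ z)

end P073.B4
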